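import Vale.Agent.P214.FV.Cyl

/-!
# P214, block FV: linear algebra of a pair of planes

`tilt T B = tr (B) - tr (p B)`: trace of `B` on the complement of `T`.  For `B = S.starProjection`
with `dim S = dim T = m` this is the tilt excess `m - tr (p P)`.
-/

open Set Filter Topology MeasureTheory Metric
open scoped RealInnerProductSpace

set_option linter.all false

namespace Vale.Agent.P214.FV

variable {E : Type*} [NormedAddCommGroup E] [InnerProductSpace ℝ E] [FiniteDimensional ℝ E]

/-- the projection onto the orthogonal complement, `y ↦ y - p y` -/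
noncomputable def co (T : Submodule ℝ E) : E →L[ℝ] E := ContinuousLinearMap.id ℝ E - T.starProjection

lemma co_apply (T : Submodule ℝ E) (v : E) : co T v = v - T.starProjection v := rfl

lemma co_eq (T : Submodule ℝ E) : co T = Tᗮ.starProjection := by
  ext v
  rw [co_apply, Submodule.starProjection_orthogonal_val]

lemma star_self (T : Submodule ℝ E) (v : E) :
    T.starProjection (T.starProjection v) = T.starProjection v :=
  Submodule.starProjection_eq_self_iff.2 (T.starProjection_apply_mem v)

lemma inner_star (T : Submodule ℝ E) (v w : E) :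
    ⟪T.starProjection v, w⟫ = ⟪v, T.starProjection w⟫ :=
  Submodule.inner_starProjection_left_eq_right T v w

lemma inner_star_self (T : Submodule ℝ E) (v : E) :
    ⟪v, T.starProjection v⟫ = ‖T.starProjection v‖ ^ 2 := by
  rw [← real_inner_self_eq_norm_sq, inner_star, star_self]

lemma star_comp_self (T : Submodule ℝ E) : T.starProjection.comp T.starProjection = T.starProjection := by
  ext v; exact star_self T v

lemma co_self (T : Submodule ℝ E) (v : E) : co T (co T v) = co T v := by
  rw [co_eq]; exact star_self _ v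

lemma inner_co (T : Submodule ℝ E) (v w : E) : ⟪co T v, w⟫ = ⟪v, co T w⟫ := by
  rw [co_eq]; exact inner_star _ v w

lemma star_co (T : Submodule ℝ E) (v : E) : T.starProjection (co T v) = 0 := by
  rw [co_apply, map_sub, star_self, sub_self]

lemma co_star (T : Submodule ℝ E) (v : E) : co T (T.starProjection v) = 0 := by
  rw [co_apply, star_self, sub_self]

lemma star_add_co (T : Submodule ℝ E) (v : E) : T.starProjection v + co T v = v := by
  rw [co_apply]; abel

lemma norm_sq_star_add_co (T : Submodule ℝ E) (v : E) :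
    ‖v‖ ^ 2 = ‖T.starProjection v‖ ^ 2 + ‖co T v‖ ^ 2 := by
  conv_lhs => rw [← star_add_co T v]
  rw [norm_add_sq_real, inner_star, star_co]
  simp

lemma norm_star_le (T : Submodule ℝ E) (v : E) : ‖T.starProjection v‖ ≤ ‖v‖ := by
  have := T.starProjection.le_opNorm v
  calc ‖T.starProjection v‖ ≤ ‖T.starProjection‖ * ‖v‖ := this
    _ ≤ 1 * ‖v‖ := by gcongr; exact T.starProjection_norm_le
    _ = ‖v‖ := one_mul _

lemma norm_co_le (T : Submodule ℝ E) (v : E) : ‖co T v‖ ≤ ‖v‖ := by
  rw [co_eq]; exact norm_star_le _ v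

/-- Hilbert-Schmidt norm squared -/
noncomputable def hs (A : E →L[ℝ] E) : ℝ := ∑ k, ‖A (stdOrthonormalBasis ℝ E k)‖ ^ 2

lemma hs_nonneg (A : E →L[ℝ] E) : 0 ≤ hs A := Finset.sum_nonneg fun _ _ => by positivity

/-- the operator norm is bounded by the Hilbert-Schmidt norm -/
lemma norm_sq_le_hs (A : E →L[ℝ] E) (v : E) : ‖A v‖ ^ 2 ≤ hs A * ‖v‖ ^ 2 := by
  set b := stdOrthonormalBasis ℝ E with hb
  have h1 : ‖A v‖ ≤ ∑ k, |⟪b k, v⟫| * ‖A (b k)‖ := by
    conv_lhs => rw [← b.sum_repr' v]
    rw [map_sum]
    refine (norm_sum_le _ _).trans (Finset.sum_le_sum fun k _ => ?_)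
    rw [map_smul, norm_smul, Real.norm_eq_abs]
  have h2 : (∑ k, |⟪b k, v⟫| * ‖A (b k)‖) ^ 2 ≤ (∑ k, |⟪b k, v⟫| ^ 2) * ∑ k, ‖A (b k)‖ ^ 2 :=
    Finset.sum_mul_sq_le_sq_mul_sq _ _ _
  have h3 : ∑ k, |⟪b k, v⟫| ^ 2 = ‖v‖ ^ 2 := by
    rw [← b.sum_sq_norm_inner_right v]
    rfl
  calc ‖A v‖ ^ 2 ≤ (∑ k, |⟪b k, v⟫| * ‖A (b k)‖) ^ 2 := by gcongr
    _ ≤ _ := h2
    _ = hs A * ‖v‖ ^ 2 := by rw [h3, hs, mul_comm]

/-- `hs (A) = tr (B A)` when `⟪A v, A w⟫ = ⟪v, B A w⟫`-/
lemma hs_eq_tr {A C : E →L[ℝ] E} (h : ∀ v, ⟪A v, A v⟫ = ⟪v, C v⟫) : hs A = tr C := by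
  rw [hs, tr_eq_sum (stdOrthonormalBasis ℝ E)]
  refine Finset.sum_congr rfl fun k _ => ?_
  rw [← real_inner_self_eq_norm_sq, h]

/-- the tilt of `B` against `T` -/
noncomputable def tilt (T : Submodule ℝ E) (B : E →L[ℝ] E) : ℝ := tr ((co T).comp B)

lemma tilt_eq (T : Submodule ℝ E) (B : E →L[ℝ] E) :
    tilt T B = tr B - tr (T.starProjection.comp B) := by
  rw [tilt, co, ContinuousLinearMap.sub_comp, tr_sub, ContinuousLinearMap.id_comp]

lemma tilt_eq' (T : Submodule ℝ E) (B : E →L[ℝ] E) : tilt T B = tr (B.comp (co T)) :=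
  tr_comp_comm _ _

variable (S T : Submodule ℝ E)

lemma tilt_star : tilt T S.starProjection =
    Module.finrank ℝ S - tr (T.starProjection.comp S.starProjection) := by
  rw [tilt_eq, tr_starProjection]

/-- `hs (q P) = tilt` -/
lemma hs_co_comp : hs ((co T).comp S.starProjection) = tilt T S.starProjection := by
  have h1 : tilt T S.starProjection = tr (S.starProjection.comp ((co T).comp S.starProjection)) := by
    rw [tr_comp_comm, ContinuousLinearMap.comp_assoc, star_comp_self]
    rfl
  rw [h1]
  refine hs_eq_tr fun v => ?_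
  simp only [ContinuousLinearMap.comp_apply]
  rw [inner_co, co_self, inner_star]

/-- `hs (P q) = tilt` -/
lemma hs_comp_co : hs (S.starProjection.comp (co T)) = tilt T S.starProjection := by
  have h1 : tilt T S.starProjection = tr ((co T).comp (S.starProjection.comp (co T))) := by
    rw [tr_comp_comm (co T), ContinuousLinearMap.comp_assoc]
    have : (co T).comp (co T) = co T := by ext v; exact co_self T v
    rw [this]
    exact tr_comp_comm _ _
  rw [h1]
  refine hs_eq_tr fun v => ?_
  simp only [ContinuousLinearMap.comp_apply]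
  rw [inner_star, star_self, inner_co]

lemma tilt_nonneg : 0 ≤ tilt T S.starProjection := by
  rw [← hs_co_comp]; exact hs_nonneg _

/-- `‖q P v‖² ≤ tilt ‖v‖²` -/
lemma norm_sq_co_star_le (v : E) :
    ‖co T (S.starProjection v)‖ ^ 2 ≤ tilt T S.starProjection * ‖v‖ ^ 2 := by
  rw [← hs_co_comp]; exact norm_sq_le_hs ((co T).comp S.starProjection) v

/-- `‖P q v‖² ≤ tilt ‖q v‖²` -/
lemma norm_sq_star_co_le (v : E) :
    ‖S.starProjection (co T v)‖ ^ 2 ≤ tilt T S.starProjection * ‖co T v‖ ^ 2 := by
  have := norm_sq_le_hs (S.starProjection.comp (co T)) (co T v)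
  rw [hs_comp_co] at this
  simpa only [ContinuousLinearMap.comp_apply, co_self] using this

variable {S T}

/-- vectors orthogonal to `T` -/
lemma norm_sq_star_le_of_mem {w : E} (hw : w ∈ Tᗮ) :
    ‖S.starProjection w‖ ^ 2 ≤ tilt T S.starProjection * ‖w‖ ^ 2 := by
  have h : co T w = w := by rw [co_eq]; exact Submodule.starProjection_eq_self_iff.2 hw
  have := norm_sq_star_co_le S T w
  rwa [h] at this

variable (S T)

/-- the horizontal defect `B = p - p P p` -/
noncomputable def defect (P : E →L[ℝ] E) : E →L[ℝ] E :=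
  T.starProjection - T.starProjection.comp (P.comp T.starProjection)

lemma inner_defect (v : E) : ⟪v, defect T S.starProjection v⟫ =
    ‖co S (T.starProjection v)‖ ^ 2 := by
  rw [defect, ContinuousLinearMap.sub_apply, inner_sub_right]
  simp only [ContinuousLinearMap.comp_apply]
  rw [inner_star_self, ← inner_star T v, inner_star_self, norm_sq_star_add_co S (T.starProjection v)]
  ring

lemma inner_defect_nonneg (v : E) : 0 ≤ ⟪v, defect T S.starProjection v⟫ := by
  rw [inner_defect]; positivity

/-- `tr B = dim T - tr (p P)` -/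
lemma tr_defect (P : E →L[ℝ] E) : tr (defect T P) =
    Module.finrank ℝ T - tr (T.starProjection.comp P) := by
  rw [defect, tr_sub, tr_starProjection, tr_comp_comm, ContinuousLinearMap.comp_assoc,
    star_comp_self, tr_comp_comm]

lemma tr_defect_eq_tilt (h : Module.finrank ℝ S = Module.finrank ℝ T) :
    tr (defect T S.starProjection) = tilt T S.starProjection := by
  rw [tr_defect, tilt_star, h]

lemma hs_co_star : hs ((co S).comp T.starProjection) = tr (defect T S.starProjection) := by
  refine hs_eq_tr fun v => ?_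
  rw [inner_defect, ← real_inner_self_eq_norm_sq]
  rfl

/-- `⟪v, B v⟫ ≤ tilt ‖p v‖²` -/
lemma inner_defect_le (h : Module.finrank ℝ S = Module.finrank ℝ T) (v : E) :
    ⟪v, defect T S.starProjection v⟫ ≤ tilt T S.starProjection * ‖T.starProjection v‖ ^ 2 := by
  rw [inner_defect, ← tr_defect_eq_tilt S T h, ← hs_co_star]
  have := norm_sq_le_hs ((co S).comp T.starProjection) (T.starProjection v)
  simpa only [ContinuousLinearMap.comp_apply, star_self] using this

/-- `⟪x, P x⟫ = ‖x‖² - ⟪x, B x⟫` for `x ∈ T` -/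
lemma inner_star_eq_sub_defect {x : E} (hx : x ∈ T) (P : E →L[ℝ] E) :
    ⟪x, P x⟫ = ‖x‖ ^ 2 - ⟪x, defect T P x⟫ := by
  have h1 : T.starProjection x = x := Submodule.starProjection_eq_self_iff.2 hx
  rw [defect, ContinuousLinearMap.sub_apply, inner_sub_right]
  simp only [ContinuousLinearMap.comp_apply]
  rw [← inner_star T x (P (T.starProjection x)), h1, real_inner_self_eq_norm_sq]
  ring

/-- `hs (P - p) = 2 tilt` -/
lemma hs_sub (h : Module.finrank ℝ S = Module.finrank ℝ T) :
    hs (S.starProjection - T.starProjection) = 2 * tilt T S.starProjection := by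
  have h1 : hs (S.starProjection - T.starProjection) =
      tr (S.starProjection + T.starProjection - S.starProjection.comp T.starProjection -
        T.starProjection.comp S.starProjection) := by
    refine hs_eq_tr fun v => ?_
    simp only [ContinuousLinearMap.sub_apply, ContinuousLinearMap.add_apply,
      ContinuousLinearMap.comp_apply, inner_sub_left, inner_sub_right, inner_add_right]
    rw [inner_star S v, star_self, inner_star S v, inner_star T v, inner_star T v, star_self]
    ring
  rw [h1, tr_sub, tr_sub, tr_add, tr_starProjection, tr_starProjection, tilt_star, h,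
    tr_comp_comm S.starProjection]
  ring

/-- `‖(P - p) v‖² ≤ 2 tilt ‖v‖²` -/
lemma norm_sq_sub_le (h : Module.finrank ℝ S = Module.finrank ℝ T) (v : E) :
    ‖S.starProjection v - T.starProjection v‖ ^ 2 ≤ 2 * tilt T S.starProjection * ‖v‖ ^ 2 := by
  rw [← hs_sub S T h]
  exact norm_sq_le_hs (S.starProjection - T.starProjection) v

/-- the tilt is bounded by the dimension -/
lemma tilt_le : tilt T S.starProjection ≤ Module.finrank ℝ S := by
  rw [tilt_star]
  have : 0 ≤ tr (T.starProjection.comp S.starProjection) := by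
    have h1 : hs (T.starProjection.comp S.starProjection) =
        tr (T.starProjection.comp S.starProjection) := by
      have h2 : tr (T.starProjection.comp S.starProjection) =
          tr (S.starProjection.comp (T.starProjection.comp S.starProjection)) := by
        rw [tr_comp_comm S.starProjection, ContinuousLinearMap.comp_assoc, star_comp_self]
      rw [h2]
      refine hs_eq_tr fun v => ?_
      simp only [ContinuousLinearMap.comp_apply]
      rw [inner_star T, star_self, inner_star S]
    rw [← h1]; exact hs_nonneg _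
  linarith

/-- quartic identity `‖q P v‖² = ⟪v, B v⟫ - ‖B v‖²` for `v ∈ T` -/
lemma norm_sq_co_star_eq {v : E} (hv : v ∈ T) :
    ‖co T (S.starProjection v)‖ ^ 2 =
      ⟪v, defect T S.starProjection v⟫ - ‖defect T S.starProjection v‖ ^ 2 := by
  have h1 : T.starProjection v = v := Submodule.starProjection_eq_self_iff.2 hv
  have h2 : defect T S.starProjection v = v - T.starProjection (S.starProjection v) := by
    rw [defect, ContinuousLinearMap.sub_apply]
    simp only [ContinuousLinearMap.comp_apply]
    rw [h1]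
  have h3 := norm_sq_star_add_co T (S.starProjection v)
  have h4 : ⟪v, T.starProjection (S.starProjection v)⟫ = ‖S.starProjection v‖ ^ 2 := by
    rw [← inner_star T v, h1, inner_star_self]
  rw [h2, inner_sub_right, real_inner_self_eq_norm_sq, norm_sub_sq_real, h4]
  linarith

/-- mixed block: `|⟪P x, w⟫| ≤ √tilt ‖x‖ ‖w‖`, `w ∈ Tᗮ` -/
lemma abs_inner_mixed_le {x w : E} (hw : w ∈ Tᗮ) :
    |⟪S.starProjection x, w⟫| ≤ √(tilt T S.starProjection) * ‖x‖ * ‖w‖ := by
  rw [inner_star]
  calc |⟪x, S.starProjection w⟫| ≤ ‖x‖ * ‖S.starProjection w‖ := abs_real_inner_le_norm _ _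
    _ ≤ ‖x‖ * (√(tilt T S.starProjection) * ‖w‖) := by
        gcongr
        refine abs_le_of_sq_le_sq' ?_ (by positivity) |>.2
        rw [mul_pow, Real.sq_sqrt (tilt_nonneg S T)]
        exact norm_sq_star_le_of_mem hw
    _ = _ := by ring

end Vale.Agent.P214.FV
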