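import Vale.Agent.P214.FV.Radial

/-!
# P214, block FV: second order identities

`hess F B y = tr (D²F ∘ B)`.
-/

open Set Filter Topology MeasureTheory Metric
open scoped RealInnerProductSpace

set_option linter.all false

namespace Vale.Agent.P214.FV

variable {E : Type*} [NormedAddCommGroup E] [InnerProductSpace ℝ E] [FiniteDimensional ℝ E]

lemma smulRight_comp' (f : E →L[ℝ] ℝ) (v : E) (B : E →L[ℝ] E) :
    (f.smulRight v).comp B = (f.comp B).smulRight v := by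
  ext w
  simp

lemma fderiv_grad {F : E → ℝ} (hF : ContDiff ℝ 2 F) (y v w : E) :
    ⟪w, fderiv ℝ (grad F) y v⟫ = fderiv ℝ (fderiv ℝ F) y v w := by
  have h1 : ContDiff ℝ 1 (fderiv ℝ F) := hF.fderiv_right (by norm_num)
  have h2 : HasFDerivAt (fderiv ℝ F) (fderiv ℝ (fderiv ℝ F) y) y :=
    (h1.differentiable (by norm_num) y).hasFDerivAt
  set L := (InnerProductSpace.toDual ℝ E).symm.toContinuousLinearEquiv.toContinuousLinearMap with hL
  have h3 : HasFDerivAt (grad F) (L.comp (fderiv ℝ (fderiv ℝ F) y)) y := L.hasFDerivAt.comp y h2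
  rw [h3.fderiv, real_inner_comm]
  have : (L.comp (fderiv ℝ (fderiv ℝ F) y)) v =
      (InnerProductSpace.toDual ℝ E).symm (fderiv ℝ (fderiv ℝ F) y v) := rfl
  rw [this]
  simp

/-- `hess F B y = ∑ D²F (B b_k) b_k` -/
lemma hess_eq_sum {F : E → ℝ} (hF : ContDiff ℝ 2 F) {ι : Type*} [Fintype ι]
    (b : OrthonormalBasis ι ℝ E) (B : E →L[ℝ] E) (y : E) :
    hess F B y = ∑ k, fderiv ℝ (fderiv ℝ F) y (B (b k)) (b k) := by
  rw [hess, tr_eq_sum b]
  refine Finset.sum_congr rfl fun k _ => ?_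
  rw [← fderiv_grad hF]
  rfl

/-- hessian trace from an explicit gradient -/
lemma hess_of_grad {F : E → ℝ} {X : E → E} (hX : ∀ y v, fderiv ℝ F y v = ⟪X y, v⟫) {A : E →L[ℝ] E}
    {y : E} (hA : HasFDerivAt X A y) (B : E →L[ℝ] E) : hess F B y = tr (A.comp B) := by
  have : grad F = X := by
    funext y
    refine ext_inner_right ℝ fun v => ?_
    rw [inner_grad, hX]
  rw [hess, this, hA.fderiv]

lemma hess_const (c : ℝ) (B : E →L[ℝ] E) (y : E) : hess (fun _ => c) B y = 0 := by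
  rw [hess_of_grad (X := fun _ => 0) (A := 0) (fun y v => by simp) (hasFDerivAt_const _ _)]
  simp [tr_zero]

lemma hess_inner (a : E) (B : E →L[ℝ] E) (y : E) : hess (fun y => ⟪a, y⟫) B y = 0 := by
  rw [hess_of_grad (X := fun _ => a) (A := 0) (fun y v => ?_) (hasFDerivAt_const _ _)]
  · simp [tr_zero]
  · have : HasFDerivAt (fun y : E => ⟪a, y⟫) (innerSL ℝ a) y := (innerSL ℝ a).hasFDerivAt
    rw [this.fderiv]; rfl

lemma tr_id_comp (B : E →L[ℝ] E) : tr ((ContinuousLinearMap.id ℝ E).comp B) = tr B := by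
  rw [ContinuousLinearMap.id_comp]

/-- squared height: `hess (½|w|²) B = tilt B` -/
lemma hess_hgt_sq {T : Submodule ℝ E} {c : E} (hc : c ∈ Tᗮ) (B : E →L[ℝ] E) (y : E) :
    hess (fun y => ‖hgt T c y‖ ^ 2 / 2) B y = tilt T B := by
  refine hess_of_grad (X := hgt T c) (fun y v => ?_) (hasFDerivAt_hgt T c y) B
  have hk : DifferentiableAt ℝ (fun s : ℝ => s / 2) (‖hgt T c y‖ ^ 2) := by fun_prop
  have hd : deriv (fun s : ℝ => s / 2) (‖hgt T c y‖ ^ 2) = 1 / 2 := by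
    simp
  have h2 : (fun y => ‖hgt T c y‖ ^ 2 / 2) = vrad T c (fun s => s / 2) := rfl
  rw [h2, fderiv_vrad hc hk, hd]
  ring

/-- squared base distance: `hess (½|x|²) B = tr (p B)` -/
lemma hess_bas_sq {T : Submodule ℝ E} {z : E} (hz : z ∈ T) (B : E →L[ℝ] E) (y : E) :
    hess (fun y => ‖bas T z y‖ ^ 2 / 2) B y = tr (T.starProjection.comp B) := by
  refine hess_of_grad (X := bas T z) (fun y v => ?_) (hasFDerivAt_bas T z y) B
  have hk : DifferentiableAt ℝ (fun s : ℝ => s / 2) (‖bas T z y‖ ^ 2) := by fun_prop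
  have hd : deriv (fun s : ℝ => s / 2) (‖bas T z y‖ ^ 2) = 1 / 2 := by
    simp
  have h2 : (fun y => ‖bas T z y‖ ^ 2 / 2) = rad T z (fun s => s / 2) := rfl
  rw [h2, fderiv_rad hz hk, hd]
  ring

/-- hessian trace of a radial base profile:
`hess k(|x|²) B = 2 k' tr (p B) + 4 k'' ⟪x, B x⟫` (for `B` with `⟪x, p B x⟫`) -/
lemma hess_rad {T : Submodule ℝ E} {z : E} (hz : z ∈ T) {k : ℝ → ℝ} (hk : ContDiff ℝ 2 k)
    (B : E →L[ℝ] E) (y : E) :
    hess (rad T z k) B y = 2 * deriv k (‖bas T z y‖ ^ 2) * tr (T.starProjection.comp B) +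
      4 * deriv (deriv k) (‖bas T z y‖ ^ 2) * ⟪bas T z y, B (bas T z y)⟫ := by
  have hk' : ContDiff ℝ 1 (deriv k) := (contDiff_succ_iff_deriv.1 hk).2.2
  have h1 : HasFDerivAt (fun y => 2 * deriv k (‖bas T z y‖ ^ 2))
      (2 • ((2 * deriv (deriv k) (‖bas T z y‖ ^ 2)) •
        ((innerSL ℝ (bas T z y)).comp T.starProjection))) y :=
    by
      have := (hasFDerivAt_sq (hasFDerivAt_bas T z y)
        (hk'.differentiable (by norm_num) _).hasDerivAt).const_mul (2 : ℝ)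
      refine this.congr_fderiv ?_
      ext v; simp
  have h2 := h1.smul (hasFDerivAt_bas T z y)
  rw [hess_of_grad (X := fun y => (2 * deriv k (‖bas T z y‖ ^ 2)) • bas T z y)
    (fun y v => by
      rw [fderiv_rad hz (hk.differentiable (by norm_num) _), inner_smul_left]; rfl) h2 B]
  rw [ContinuousLinearMap.add_comp, tr_add, ContinuousLinearMap.smul_comp, tr_smul, smulRight_comp',
    tr_smulRight]
  congr 1
  simp only [ContinuousLinearMap.comp_apply, ContinuousLinearMap.smul_apply, innerSL_apply_apply,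
    smul_eq_mul, nsmul_eq_mul]
  rw [← inner_star, Submodule.starProjection_eq_self_iff.2 (bas_mem hz y)]
  push_cast
  ring

/-- hessian trace of a vertical radial profile -/
lemma hess_vrad {T : Submodule ℝ E} {c : E} (hc : c ∈ Tᗮ) {k : ℝ → ℝ} (hk : ContDiff ℝ 2 k)
    (B : E →L[ℝ] E) (y : E) :
    hess (vrad T c k) B y = 2 * deriv k (‖hgt T c y‖ ^ 2) * tilt T B +
      4 * deriv (deriv k) (‖hgt T c y‖ ^ 2) * ⟪hgt T c y, B (hgt T c y)⟫ := by
  have hk' : ContDiff ℝ 1 (deriv k) := (contDiff_succ_iff_deriv.1 hk).2.2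
  have h1 : HasFDerivAt (fun y => 2 * deriv k (‖hgt T c y‖ ^ 2))
      (2 • ((2 * deriv (deriv k) (‖hgt T c y‖ ^ 2)) •
        ((innerSL ℝ (hgt T c y)).comp (co T)))) y :=
    by
      have := (hasFDerivAt_sq (hasFDerivAt_hgt T c y)
        (hk'.differentiable (by norm_num) _).hasDerivAt).const_mul (2 : ℝ)
      refine this.congr_fderiv ?_
      ext v; simp
  have h2 := h1.smul (hasFDerivAt_hgt T c y)
  rw [hess_of_grad (X := fun y => (2 * deriv k (‖hgt T c y‖ ^ 2)) • hgt T c y)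
    (fun y v => by
      rw [fderiv_vrad hc (hk.differentiable (by norm_num) _), inner_smul_left]; rfl) h2 B]
  rw [ContinuousLinearMap.add_comp, tr_add, ContinuousLinearMap.smul_comp, tr_smul, smulRight_comp',
    tr_smulRight]
  have h3 : co T (hgt T c y) = hgt T c y := by
    rw [co_eq]; exact Submodule.starProjection_eq_self_iff.2 (hgt_mem hc y)
  congr 1
  simp only [ContinuousLinearMap.comp_apply, ContinuousLinearMap.smul_apply, innerSL_apply_apply,
    smul_eq_mul, nsmul_eq_mul]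
  rw [← inner_co, h3]
  push_cast
  ring

variable [MeasurableSpace E] [BorelSpace E]
variable {m : ℕ} {T : Submodule ℝ E} {G : Set E} {h : ℝ} {ν : Measure E} {P : E → E →L[ℝ] E}

/-- mass form: `∫ tr (P D²φ) = 0` -/
lemma CylStat.hess_zero (hC : CylStat m T G h ν P) {φ : E → ℝ} (hφ : ContDiff ℝ 2 φ)
    (hb : BaseCpt T G φ) : ∫ y, hess φ (P y) y ∂ν = 0 := by
  have := hC.second hφ (F := fun _ => 1) contDiff_const hb
  simpa [hess_const] using this.symm

/-- coordinates are harmonic: `∫ ⟪a, y⟫ tr (P D²φ) = 0` -/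
lemma CylStat.hess_coord (hC : CylStat m T G h ν P) {φ : E → ℝ} (hφ : ContDiff ℝ 2 φ)
    (hb : BaseCpt T G φ) (a : E) : ∫ y, ⟪a, y⟫ * hess φ (P y) y ∂ν = 0 := by
  have := hC.second hφ (F := fun y => ⟪a, y⟫) (contDiff_const.inner ℝ contDiff_id) hb
  simpa [hess_inner] using this.symm

/-- **energy = second moment**: `∫ φ tilt = ½ ∫ |w|² tr (P D²φ)` -/
lemma CylStat.energy_eq (hC : CylStat m T G h ν P) {c : E} (hc : c ∈ Tᗮ) {φ : E → ℝ}
    (hφ : ContDiff ℝ 2 φ) (hb : BaseCpt T G φ) :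
    ∫ y, φ y * tilt T (P y) ∂ν = ∫ y, ‖hgt T c y‖ ^ 2 / 2 * hess φ (P y) y ∂ν := by
  have hF : ContDiff ℝ 2 (fun y => ‖hgt T c y‖ ^ 2 / 2) :=
    ((contDiff_hgt T c).norm_sq ℝ).div_const 2
  rw [← hC.second hφ hF hb]
  simp only [hess_hgt_sq hc]

/-- general vertical function, radial cut-off:
`∫ k hess F P = ∫ F (2 k' tr (pP) + 4 k'' ⟪x, P x⟫)` -/
lemma CylStat.second_rad (hC : CylStat m T G h ν P) {z : E} (hz : z ∈ T) {k : ℝ → ℝ}
    (hk : ContDiff ℝ 2 k) {R : ℝ} (hG : ∀ x ∈ T, ‖x - z‖ ≤ R → x ∈ G) (hR : 0 ≤ R)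
    (hk0 : ∀ s, R ^ 2 < s → k s = 0) {F : E → ℝ} (hF : ContDiff ℝ 2 F) :
    ∫ y, k (‖bas T z y‖ ^ 2) * hess F (P y) y ∂ν =
      ∫ y, F y * (2 * deriv k (‖bas T z y‖ ^ 2) * tr (T.starProjection.comp (P y)) +
        4 * deriv (deriv k) (‖bas T z y‖ ^ 2) * ⟪bas T z y, P y (bas T z y)⟫) ∂ν := by
  have := hC.second (contDiff_rad T z hk) hF (baseCpt_rad hG hR hk0)
  simp only [hess_rad hz hk] at this
  exact this

end Vale.Agent.P214.FV
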