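import Vale.Agent.P214.FV.Chain

/-!
# P214, block FV: general integrability, truncated fields, slab energy estimate
-/

open Set Filter Topology MeasureTheory Metric
open scoped RealInnerProductSpace

set_option linter.all false

namespace Vale.Agent.P214.FV

variable {E : Type*} [NormedAddCommGroup E] [InnerProductSpace ℝ E] [FiniteDimensional ℝ E]
variable {W : Type*} [NormedAddCommGroup W] [InnerProductSpace ℝ W]

/-- the compact slab over a compact set of base points -/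
lemma isCompact_slab (T : Submodule ℝ E) {K : Set E} (hK : IsCompact K) (h : ℝ) :
    IsCompact {y : E | T.starProjection y ∈ K ∧ ‖y - T.starProjection y‖ ≤ h} := by
  obtain ⟨R, hR⟩ := hK.isBounded.exists_norm_le
  refine Metric.isCompact_of_isClosed_isBounded ?_ ?_
  · exact (hK.isClosed.preimage T.starProjection.continuous).inter
      (isClosed_le (continuous_id.sub T.starProjection.continuous).norm continuous_const)
  · refine (Metric.isBounded_closedBall (x := (0 : E)) (r := R + h)).subset ?_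
    rintro y ⟨h1, h2⟩
    rw [mem_closedBall_zero_iff]
    calc ‖y‖ = ‖T.starProjection y + (y - T.starProjection y)‖ := by congr 1; abel
      _ ≤ ‖T.starProjection y‖ + ‖y - T.starProjection y‖ := norm_add_le _ _
      _ ≤ R + h := add_le_add (hR _ h1) h2

section meas

variable [MeasurableSpace E] [BorelSpace E]
variable {m : ℕ} {T : Submodule ℝ E} {G : Set E} {h : ℝ} {ν : Measure E} {P : E → E →L[ℝ] E}

/-- continuous functions of the tangent plane and the point, locally bounded -/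
lemma CylStat.aesm (hC : CylStat m T G h ν P) {X : Type*} [TopologicalSpace X]
    {Φ : (E →L[ℝ] E) × E → X} (hΦ : Continuous Φ) :
    AEStronglyMeasurable (fun y => Φ (P y, y)) ν :=
  hΦ.comp_aestronglyMeasurable (hC.meas.prodMk aestronglyMeasurable_id)

/-- **General integrability.** -/
lemma CylStat.integrable_gen (hC : CylStat m T G h ν P) {Φ : (E →L[ℝ] E) × E → ℝ}
    (hΦ : Continuous Φ) {K : Set E} (hK : IsCompact K) (hKG : K ⊆ G)
    (h0 : ∀ B y, T.starProjection y ∉ K → Φ (B, y) = 0) :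
    Integrable (fun y => Φ (P y, y)) ν := by
  have := hC.fin
  haveI : ProperSpace (E →L[ℝ] E) := FiniteDimensional.proper ℝ (E →L[ℝ] E)
  have hcpt : IsCompact ((closedBall (0 : E →L[ℝ] E) 1) ×ˢ
      {y : E | T.starProjection y ∈ K ∧ ‖y - T.starProjection y‖ ≤ h}) :=
    (isCompact_closedBall _ _).prod (isCompact_slab T hK h)
  obtain ⟨C, hCb⟩ := hcpt.exists_bound_of_continuousOn hΦ.continuousOn
  refine Integrable.mono' (integrable_const (max C 0)) (hC.aesm hΦ) ?_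
  filter_upwards [hC.norm_le, hC.slab] with y hy hy'
  by_cases hyK : T.starProjection y ∈ K
  · exact (hCb (P y, y) ⟨by simpa using hy, hyK, hy' (hKG hyK)⟩).trans (le_max_left _ _)
  · rw [h0 _ y hyK]; simp

end meas

/-- derivative of `g (‖w‖²)` on `W`, `g` differentiable on `[0,∞)` -/
lemma fderiv_normsq' {g g' : ℝ → ℝ} (hg : ∀ s, 0 ≤ s → HasDerivAt g (g' s) s) (w v : W) :
    fderiv ℝ (fun w : W => g (‖w‖ ^ 2)) w v = 2 * g' (‖w‖ ^ 2) * ⟪w, v⟫ := by
  have h1 : HasFDerivAt (fun w : W => ‖w‖ ^ 2) (2 • (innerSL ℝ w).comp (ContinuousLinearMap.id ℝ W)) w :=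
    (hasFDerivAt_id w).norm_sq
  have h2 := ((hg (‖w‖ ^ 2) (by positivity)).comp_hasFDerivAt w h1).fderiv
  have h3 : fderiv ℝ (fun w : W => g (‖w‖ ^ 2)) w = g' (‖w‖ ^ 2) •
      (2 • (innerSL ℝ w).comp (ContinuousLinearMap.id ℝ W)) := h2
  rw [h3]
  simp
  ring

lemma fderiv_fderiv_normsq' {g g' g'' : ℝ → ℝ} (hg : ∀ s, 0 ≤ s → HasDerivAt g (g' s) s)
    (hg' : ∀ s, 0 ≤ s → HasDerivAt g' (g'' s) s) (w u v : W) :
    fderiv ℝ (fderiv ℝ (fun w : W => g (‖w‖ ^ 2))) w u v =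
      4 * g'' (‖w‖ ^ 2) * (⟪w, u⟫ * ⟪w, v⟫) + 2 * g' (‖w‖ ^ 2) * ⟪u, v⟫ := by
  have h1 : fderiv ℝ (fun w : W => g (‖w‖ ^ 2)) =
      fun w => (2 * g' (‖w‖ ^ 2)) • (innerSL ℝ w) := by
    funext w
    ext v
    rw [fderiv_normsq' hg]
    simp
  rw [h1]
  have h2 : HasFDerivAt (fun w : W => ‖w‖ ^ 2) (2 • (innerSL ℝ w).comp (ContinuousLinearMap.id ℝ W)) w :=
    (hasFDerivAt_id w).norm_sq
  have h3 : HasFDerivAt (fun w : W => 2 * g' (‖w‖ ^ 2))
      ((2 : ℝ) • (g'' (‖w‖ ^ 2) • (2 • (innerSL ℝ w).comp (ContinuousLinearMap.id ℝ W)))) w :=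
    ((hg' (‖w‖ ^ 2) (by positivity)).comp_hasFDerivAt w h2).const_mul 2
  have h4 : HasFDerivAt (fun w : W => innerSL ℝ w) (innerSL ℝ : W →L[ℝ] W →L[ℝ] ℝ) w :=
    (innerSL ℝ : W →L[ℝ] W →L[ℝ] ℝ).hasFDerivAt
  have h5 := (h3.smul h4).fderiv
  have h6 : fderiv ℝ (fun w : W => (2 * g' (‖w‖ ^ 2)) • (innerSL ℝ w)) w = _ := h5
  rw [h6]
  have h7 : ((innerSL ℝ : W →L[ℝ] W →L[ℝ] ℝ) u) v = ⟪u, v⟫ := rfl
  simp [h7]
  ring

/-- the smoothed norm `√(σ² + ‖w‖²)` -/
noncomputable def snorm (σ : ℝ) (w : W) : ℝ := √(σ ^ 2 + ‖w‖ ^ 2)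

lemma snorm_pos {σ : ℝ} (hσ : 0 < σ) (w : W) : 0 < snorm σ w := Real.sqrt_pos.2 (by positivity)

lemma snorm_sq {σ : ℝ} (w : W) : snorm σ w ^ 2 = σ ^ 2 + ‖w‖ ^ 2 := Real.sq_sqrt (by positivity)

lemma norm_le_snorm {σ : ℝ} (w : W) : ‖w‖ ≤ snorm σ w := by
  refine Real.le_sqrt_of_sq_le ?_
  nlinarith [sq_nonneg σ]

lemma contDiff_snorm {σ : ℝ} (hσ : 0 < σ) {n : WithTop ℕ∞} : ContDiff ℝ n (snorm σ : W → ℝ) := by
  have h1 : ContDiff ℝ n (fun w : W => σ ^ 2 + ‖w‖ ^ 2) := contDiff_const.add (contDiff_norm_sq ℝ)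
  exact h1.sqrt fun w => by positivity

lemma hasDerivAt_snorm {σ : ℝ} (hσ : 0 < σ) (s : ℝ) (hs : 0 ≤ s) :
    HasDerivAt (fun s => √(σ ^ 2 + s)) (1 / (2 * √(σ ^ 2 + s))) s := by
  have h1 : HasDerivAt (fun s : ℝ => σ ^ 2 + s) 1 s := (hasDerivAt_id s).const_add _
  exact h1.sqrt (by positivity)

lemma hasDerivAt_snorm' {σ : ℝ} (hσ : 0 < σ) (s : ℝ) (hs : 0 ≤ s) :
    HasDerivAt (fun s => 1 / (2 * √(σ ^ 2 + s))) (-1 / (4 * √(σ ^ 2 + s) ^ 3)) s := by
  have h0 : 0 < √(σ ^ 2 + s) := Real.sqrt_pos.2 (by positivity)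
  have h1 := ((hasDerivAt_snorm hσ s hs).const_mul 2).inv (by positivity)
  have h2 : (fun s => 1 / (2 * √(σ ^ 2 + s))) = (fun s => 2 * √(σ ^ 2 + s))⁻¹ := by
    funext s; simp
  rw [h2]
  refine h1.congr_deriv ?_
  field_simp
  ring

lemma fderiv_snorm {σ : ℝ} (hσ : 0 < σ) (w v : W) :
    fderiv ℝ (snorm σ : W → ℝ) w v = ⟪w, v⟫ / snorm σ w := by
  have := fderiv_normsq' (W := W) (hasDerivAt_snorm hσ) w v
  have h2 : (snorm σ : W → ℝ) = fun w => √(σ ^ 2 + ‖w‖ ^ 2) := rfl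
  have h0 := snorm_pos hσ w
  rw [h2, this]
  simp only
  have : √(σ ^ 2 + ‖w‖ ^ 2) ≠ 0 := h0.ne'
  field_simp

lemma fderiv_fderiv_snorm {σ : ℝ} (hσ : 0 < σ) (w u v : W) :
    fderiv ℝ (fderiv ℝ (snorm σ : W → ℝ)) w u v =
      ⟪u, v⟫ / snorm σ w - ⟪w, u⟫ * ⟪w, v⟫ / snorm σ w ^ 3 := by
  have := fderiv_fderiv_normsq' (W := W) (hasDerivAt_snorm hσ) (hasDerivAt_snorm' hσ) w u v
  have h2 : (snorm σ : W → ℝ) = fun w => √(σ ^ 2 + ‖w‖ ^ 2) := rfl
  have h0 := snorm_pos hσ w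
  rw [h2, this]
  simp only
  have : √(σ ^ 2 + ‖w‖ ^ 2) ≠ 0 := h0.ne'
  field_simp
  ring

/-- exact formula: hessian trace of `√(σ²+|w|²)` along a plane -/
lemma hess_snorm [FiniteDimensional ℝ W] {σ : ℝ} (hσ : 0 < σ) {w : E → W} (hw : ContDiff ℝ 2 w)
    (S : Submodule ℝ E) (y : E) :
    hess (fun y => snorm σ (w y)) S.starProjection y =
      gsq w S.starProjection y / snorm σ (w y) -
      (∑ k, ⟪w y, fderiv ℝ w y (S.starProjection (stdOrthonormalBasis ℝ E k))⟫ ^ 2) /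
        snorm σ (w y) ^ 3 + ⟪w y, lap w S.starProjection y⟫ / snorm σ (w y) := by
  rw [hess_comp (contDiff_snorm hσ) hw]
  simp only [fderiv_fderiv_snorm hσ, fderiv_snorm hσ]
  rw [Finset.sum_sub_distrib, gsq, Finset.sum_div, Finset.sum_div]
  congr 2
  rw [← Finset.sum_div, ← Finset.sum_div]
  congr 1
  have := sum_inner_eq S ((innerSL ℝ (w y)).comp (fderiv ℝ w y)) ((innerSL ℝ (w y)).comp (fderiv ℝ w y))
  simp only [ContinuousLinearMap.comp_apply, innerSL_apply_apply] at this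
  rw [this]
  exact Finset.sum_congr rfl fun k _ => (sq _).symm

/-- lower bound -/
lemma hess_snorm_ge [FiniteDimensional ℝ W] {σ : ℝ} (hσ : 0 < σ) {w : E → W} (hw : ContDiff ℝ 2 w)
    (S : Submodule ℝ E) (y : E) :
    σ ^ 2 / snorm σ (w y) ^ 3 * gsq w S.starProjection y - ‖lap w S.starProjection y‖ ≤
      hess (fun y => snorm σ (w y)) S.starProjection y := by
  rw [hess_snorm hσ hw]
  have h0 := snorm_pos hσ (w y)
  have h1 := sum_inner_sq_le w S y (w y)
  have h2 := snorm_sq (σ := σ) (w y)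
  have h3 : -‖lap w S.starProjection y‖ ≤ ⟪w y, lap w S.starProjection y⟫ / snorm σ (w y) := by
    have h4 := abs_real_inner_le_norm (w y) (lap w S.starProjection y)
    rw [abs_le] at h4
    rw [le_div_iff₀ h0]
    have h5 := norm_le_snorm (σ := σ) (w y)
    nlinarith [norm_nonneg (lap w S.starProjection y)]
  have h6 : σ ^ 2 / snorm σ (w y) ^ 3 * gsq w S.starProjection y ≤
      gsq w S.starProjection y / snorm σ (w y) -
      (∑ k, ⟪w y, fderiv ℝ w y (S.starProjection (stdOrthonormalBasis ℝ E k))⟫ ^ 2) /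
        snorm σ (w y) ^ 3 := by
    have h7 : gsq w S.starProjection y / snorm σ (w y) =
        snorm σ (w y) ^ 2 * gsq w S.starProjection y / snorm σ (w y) ^ 3 := by
      field_simp
    rw [h7, ← sub_div, div_mul_eq_mul_div]
    gcongr
    rw [h2]
    linarith
  linarith

section meas

variable [MeasurableSpace E] [BorelSpace E]
variable {m : ℕ} {T : Submodule ℝ E} {G : Set E} {h : ℝ} {ν : Measure E} {P : E → E →L[ℝ] E}

lemma continuous_gsq {w : E → W} (hw : ContDiff ℝ 1 w) :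
    Continuous fun q : (E →L[ℝ] E) × E => gsq w q.1 q.2 := by
  have h1 : Continuous (fderiv ℝ w) := hw.continuous_fderiv (by norm_num)
  unfold gsq
  refine continuous_finsetSum _ fun k _ => ?_
  have h2 : Continuous fun q : (E →L[ℝ] E) × E => fderiv ℝ w q.2 (q.1 (stdOrthonormalBasis ℝ E k)) :=
    (h1.comp continuous_snd).clm_apply (continuous_fst.clm_apply continuous_const)
  have h3 : Continuous fun q : (E →L[ℝ] E) × E => fderiv ℝ w q.2 (stdOrthonormalBasis ℝ E k) :=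
    (h1.comp continuous_snd).clm_apply continuous_const
  exact h2.inner h3

lemma continuous_lap {w : E → W} (hw : ContDiff ℝ 2 w) :
    Continuous fun q : (E →L[ℝ] E) × E => lap w q.1 q.2 := by
  have hw' : ContDiff ℝ 1 (fderiv ℝ w) := hw.fderiv_right (by norm_num)
  have h1 : Continuous (fderiv ℝ (fderiv ℝ w)) := hw'.continuous_fderiv (by norm_num)
  unfold lap
  refine continuous_finsetSum _ fun k _ => ?_
  exact ((h1.comp continuous_snd).clm_apply (continuous_fst.clm_apply continuous_const)).clm_apply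
    continuous_const

lemma continuous_grad {φ : E → ℝ} (hφ : ContDiff ℝ 1 φ) : Continuous (grad φ) :=
  (InnerProductSpace.toDual ℝ E).symm.continuous.comp (hφ.continuous_fderiv (by norm_num))

/-- **Truncated field estimate.**
`∫ φ σ²/ρ³ |∇_V w|² ≤ ∫ ‖P ∇φ‖ |∇_V w| + φ |tr_P D²w|` -/
theorem CylStat.trunc [FiniteDimensional ℝ W] (hC : CylStat m T G h ν P) {w : E → W}
    (hw : ContDiff ℝ 2 w) {φ : E → ℝ} (hφ : ContDiff ℝ 1 φ) (hφ0 : ∀ y, 0 ≤ φ y)
    (hb : BaseCpt T G φ) {σ : ℝ} (hσ : 0 < σ) :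
    ∫ y, φ y * (σ ^ 2 / snorm σ (w y) ^ 3 * gsq w (P y) y) ∂ν ≤
      ∫ y, (‖P y (grad φ y)‖ * √(gsq w (P y) y) + φ y * ‖lap w (P y) y‖) ∂ν := by
  have hw1 : ContDiff ℝ 1 w := hw.of_le (by norm_num)
  set F : E → ℝ := fun y => snorm σ (w y) with hF
  have hF2 : ContDiff ℝ 2 F := (contDiff_snorm hσ).comp hw
  have hF1 : ContDiff ℝ 1 F := hF2.of_le (by norm_num)
  obtain ⟨K, hK, hKG, h0⟩ := hb
  have hb : BaseCpt T G φ := ⟨K, hK, hKG, h0⟩
  have hgrad0 : ∀ y, T.starProjection y ∉ K → grad φ y = 0 := by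
    intro y hy
    have hopen : IsOpen {z : E | T.starProjection z ∉ K} :=
      hK.isClosed.isOpen_compl.preimage T.starProjection.continuous
    have : φ =ᶠ[𝓝 y] fun _ => (0 : ℝ) := by
      filter_upwards [hopen.mem_nhds hy] with z hz
      exact h0 z hz
    simp [grad, this.fderiv_eq]
  have hsn : Continuous fun y => snorm σ (w y) := hF2.continuous
  -- integrability
  have i1 : Integrable (fun y => φ y * (σ ^ 2 / snorm σ (w y) ^ 3 * gsq w (P y) y)) ν := by
    refine hC.integrable_gen (Φ := fun q => φ q.2 * (σ ^ 2 / snorm σ (w q.2) ^ 3 * gsq w q.1 q.2))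
      ?_ hK hKG fun B y hy => by simp [h0 y hy]
    refine (hφ.continuous.comp continuous_snd).mul (Continuous.mul ?_ (continuous_gsq hw1))
    exact continuous_const.div ((hsn.comp continuous_snd).pow 3)
      fun q => pow_ne_zero _ (snorm_pos hσ _).ne'
  have i2 : Integrable (fun y => ‖P y (grad φ y)‖ * √(gsq w (P y) y)) ν := by
    refine hC.integrable_gen (Φ := fun q => ‖q.1 (grad φ q.2)‖ * √(gsq w q.1 q.2))
      ?_ hK hKG fun B y hy => by simp [hgrad0 y hy]
    exact ((continuous_fst.clm_apply ((continuous_grad hφ).comp continuous_snd)).norm).mul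
      (continuous_gsq hw1).sqrt
  have i3 : Integrable (fun y => φ y * ‖lap w (P y) y‖) ν := by
    refine hC.integrable_gen (Φ := fun q => φ q.2 * ‖lap w q.1 q.2‖)
      ?_ hK hKG fun B y hy => by simp [h0 y hy]
    exact (hφ.continuous.comp continuous_snd).mul (continuous_lap hw).norm
  have i4 : Integrable (fun y => φ y * hess F (P y) y) ν :=
    hC.integrable_prod₁ hφ.continuous (contDiff_grad hF2) hb
  have i5 : Integrable (fun y => fderiv ℝ φ y (P y (grad F y))) ν :=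
    hC.integrable_prod₂ hφ (contDiff_grad hF2).continuous hb
  have key : ∫ y, φ y * hess F (P y) y ∂ν = -∫ y, fderiv ℝ φ y (P y (grad F y)) ∂ν :=
    hC.prod' hφ (contDiff_grad hF2) hb
  have b1 : ∫ y, φ y * (σ ^ 2 / snorm σ (w y) ^ 3 * gsq w (P y) y) ∂ν ≤
      ∫ y, (φ y * hess F (P y) y + φ y * ‖lap w (P y) y‖) ∂ν := by
    refine integral_mono_ae i1 (i4.add i3) ?_
    filter_upwards [hC.proj] with y hy
    obtain ⟨S, -, hS⟩ := hy
    have := hess_snorm_ge hσ hw S y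
    rw [hS, ← mul_add]
    refine mul_le_mul_of_nonneg_left ?_ (hφ0 y)
    linarith
  have b2 : -∫ y, fderiv ℝ φ y (P y (grad F y)) ∂ν ≤ ∫ y, ‖P y (grad φ y)‖ * √(gsq w (P y) y) ∂ν := by
    rw [← integral_neg]
    refine integral_mono_ae i5.neg i2 ?_
    filter_upwards [hC.proj] with y hy
    obtain ⟨S, -, hS⟩ := hy
    rw [hS]
    have e1 : fderiv ℝ φ y (S.starProjection (grad F y)) =
        ⟪w y, fderiv ℝ w y (S.starProjection (grad φ y))⟫ / snorm σ (w y) := by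
      rw [← inner_grad, ← inner_star, real_inner_comm, inner_grad]
      have hd : HasFDerivAt F ((fderiv ℝ (snorm σ : W → ℝ) (w y)).comp (fderiv ℝ w y)) y :=
        (((contDiff_snorm (n := 1) hσ).differentiable (by norm_num)) (w y)).hasFDerivAt.comp y
          (hw1.differentiable (by norm_num) y).hasFDerivAt
      rw [hd.fderiv, ContinuousLinearMap.comp_apply, fderiv_snorm hσ]
    rw [e1]
    have h1 := abs_cross_le w S y (w y) (grad φ y)
    have hp := snorm_pos hσ (w y)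
    rw [← neg_div, div_le_iff₀ hp]
    have h2 := norm_le_snorm (σ := σ) (w y)
    have h3 : 0 ≤ ‖S.starProjection (grad φ y)‖ * √(gsq w S.starProjection y) := by positivity
    have h4 := (abs_le.1 h1).1
    calc -⟪w y, fderiv ℝ w y (S.starProjection (grad φ y))⟫
        ≤ ‖S.starProjection (grad φ y)‖ * (‖w y‖ * √(gsq w S.starProjection y)) := by linarith
      _ = ‖S.starProjection (grad φ y)‖ * √(gsq w S.starProjection y) * ‖w y‖ := by ring
      _ ≤ ‖S.starProjection (grad φ y)‖ * √(gsq w S.starProjection y) * snorm σ (w y) := by gcongr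
  rw [integral_add i4 i3, key] at b1
  rw [integral_add i2 i3]
  linarith

/-- **Slab energy estimate**:
`∫_{‖w‖ ≤ σ} φ |∇_V w|² ≤ 3 σ ∫ ‖P ∇φ‖ |∇_V w| + φ |tr_P D²w|` -/
theorem CylStat.slab_energy [FiniteDimensional ℝ W] (hC : CylStat m T G h ν P) {w : E → W}
    (hw : ContDiff ℝ 2 w) {φ : E → ℝ} (hφ : ContDiff ℝ 1 φ) (hφ0 : ∀ y, 0 ≤ φ y)
    (hb : BaseCpt T G φ) {σ : ℝ} (hσ : 0 < σ) :
    ∫ y in {y | ‖w y‖ ≤ σ}, φ y * gsq w (P y) y ∂ν ≤
      3 * σ * ∫ y, (‖P y (grad φ y)‖ * √(gsq w (P y) y) + φ y * ‖lap w (P y) y‖) ∂ν := by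
  have hw1 : ContDiff ℝ 1 w := hw.of_le (by norm_num)
  have h1 := hC.trunc hw hφ hφ0 hb hσ
  obtain ⟨K, hK, hKG, h0⟩ := hb
  have hsn : Continuous fun y => snorm σ (w y) := (contDiff_snorm (n := 0) hσ).continuous.comp hw.continuous
  have i1 : Integrable (fun y => φ y * (σ ^ 2 / snorm σ (w y) ^ 3 * gsq w (P y) y)) ν := by
    refine hC.integrable_gen (Φ := fun q => φ q.2 * (σ ^ 2 / snorm σ (w q.2) ^ 3 * gsq w q.1 q.2))
      ?_ hK hKG fun B y hy => by simp [h0 y hy]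
    refine (hφ.continuous.comp continuous_snd).mul (Continuous.mul ?_ (continuous_gsq hw1))
    exact continuous_const.div ((hsn.comp continuous_snd).pow 3)
      fun q => pow_ne_zero _ (snorm_pos hσ _).ne'
  have i2 : Integrable (fun y => φ y * gsq w (P y) y) ν := by
    refine hC.integrable_gen (Φ := fun q => φ q.2 * gsq w q.1 q.2)
      ?_ hK hKG fun B y hy => by simp [h0 y hy]
    exact (hφ.continuous.comp continuous_snd).mul (continuous_gsq hw1)
  have hmeas : MeasurableSet {y | ‖w y‖ ≤ σ} := (isClosed_le hw.continuous.norm continuous_const).measurableSet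
  calc ∫ y in {y | ‖w y‖ ≤ σ}, φ y * gsq w (P y) y ∂ν
      = ∫ y, {y | ‖w y‖ ≤ σ}.indicator (fun y => φ y * gsq w (P y) y) y ∂ν :=
        (integral_indicator hmeas).symm
    _ ≤ ∫ y, 3 * σ * (φ y * (σ ^ 2 / snorm σ (w y) ^ 3 * gsq w (P y) y)) ∂ν := by
        refine integral_mono_ae (i2.indicator hmeas) (i1.const_mul _) ?_
        filter_upwards [hC.proj] with y hy
        obtain ⟨S, -, hS⟩ := hy
        have hg : 0 ≤ φ y * gsq w (P y) y := by
          rw [hS]; exact mul_nonneg (hφ0 y) (gsq_nonneg w S y)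
        have hp := snorm_pos hσ (w y)
        by_cases hy : y ∈ {y | ‖w y‖ ≤ σ}
        · rw [indicator_of_mem hy]
          have hy' : ‖w y‖ ≤ σ := hy
          have h2 : snorm σ (w y) ^ 2 ≤ 2 * σ ^ 2 := by
            rw [snorm_sq]
            nlinarith [norm_nonneg (w y)]
          have h3 : snorm σ (w y) ^ 3 ≤ 3 * σ ^ 3 := by
            have h4 : snorm σ (w y) ≤ 3 / 2 * σ := by
              refine abs_le_of_sq_le_sq' ?_ (by positivity) |>.2
              nlinarith [sq_nonneg σ]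
            calc snorm σ (w y) ^ 3 = snorm σ (w y) ^ 2 * snorm σ (w y) := by ring
              _ ≤ (2 * σ ^ 2) * (3 / 2 * σ) := by gcongr
              _ = 3 * σ ^ 3 := by ring
          have h5 : 1 ≤ 3 * σ * (σ ^ 2 / snorm σ (w y) ^ 3) := by
            rw [mul_div_assoc', le_div_iff₀ (by positivity)]
            linarith [h3]
          calc φ y * gsq w (P y) y = 1 * (φ y * gsq w (P y) y) := (one_mul _).symm
            _ ≤ 3 * σ * (σ ^ 2 / snorm σ (w y) ^ 3) * (φ y * gsq w (P y) y) := by gcongr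
            _ = _ := by ring
        · rw [indicator_of_notMem hy]
          have : 3 * σ * (φ y * (σ ^ 2 / snorm σ (w y) ^ 3 * gsq w (P y) y)) =
            3 * σ * (σ ^ 2 / snorm σ (w y) ^ 3) * (φ y * gsq w (P y) y) := by ring
          rw [this]
          positivity
    _ = 3 * σ * ∫ y, φ y * (σ ^ 2 / snorm σ (w y) ^ 3 * gsq w (P y) y) ∂ν := integral_const_mul _ _
    _ ≤ _ := by gcongr

/-- for the height function: `gsq = tilt` -/
lemma gsq_hgt (c : E) (B : E →L[ℝ] E) (y : E) : gsq (hgt T c) B y = tilt T B := by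
  rw [gsq, tilt, tr_eq_sum (stdOrthonormalBasis ℝ E)]
  refine Finset.sum_congr rfl fun k _ => ?_
  rw [(hasFDerivAt_hgt T c y).fderiv, inner_co, co_self, ← inner_co, real_inner_comm]
  rfl

lemma lap_hgt (c : E) (B : E →L[ℝ] E) (y : E) : lap (hgt T c) B y = 0 := by
  have : fderiv ℝ (hgt T c) = fun _ => co T := by
    funext y; exact (hasFDerivAt_hgt T c y).fderiv
  rw [lap, this]
  simp

/-- **Slab energy estimate, flat reference**: `∫_{|w| ≤ σ} φ tilt ≤ 3σ ∫ ‖P ∇φ‖ √tilt` -/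
theorem CylStat.slab_energy_flat (hC : CylStat m T G h ν P) (c : E)
    {φ : E → ℝ} (hφ : ContDiff ℝ 1 φ) (hφ0 : ∀ y, 0 ≤ φ y)
    (hb : BaseCpt T G φ) {σ : ℝ} (hσ : 0 < σ) :
    ∫ y in {y | ‖hgt T c y‖ ≤ σ}, φ y * tilt T (P y) ∂ν ≤
      3 * σ * ∫ y, ‖P y (grad φ y)‖ * √(tilt T (P y)) ∂ν := by
  have := hC.slab_energy (w := hgt T c) (contDiff_hgt T c) hφ hφ0 hb hσ
  simpa only [gsq_hgt, lap_hgt, norm_zero, mul_zero, add_zero] using this

end meas

end Vale.Agent.P214.FV
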