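import Vale.Agent.P214.FV.Slab

/-!
# P214, block FV: cut-offs and radial profiles; inner, outer, second order identities

`base T z y = p y - z`, `hgt T c y = q y - c`.
-/

open Set Filter Topology MeasureTheory Metric
open scoped RealInnerProductSpace

set_option linter.all false

namespace Vale.Agent.P214.FV

variable {E : Type*} [NormedAddCommGroup E] [InnerProductSpace ℝ E] [FiniteDimensional ℝ E]

/-- horizontal position relative to `z` -/
noncomputable def bas (T : Submodule ℝ E) (z y : E) : E := T.starProjection y - z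

/-- height relative to `c` -/
noncomputable def hgt (T : Submodule ℝ E) (c y : E) : E := co T y - c

lemma bas_mem {T : Submodule ℝ E} {z : E} (hz : z ∈ T) (y : E) : bas T z y ∈ T :=
  T.sub_mem (T.starProjection_apply_mem y) hz

lemma hgt_mem {T : Submodule ℝ E} {c : E} (hc : c ∈ Tᗮ) (y : E) : hgt T c y ∈ Tᗮ := by
  refine Tᗮ.sub_mem ?_ hc
  rw [co_eq]
  exact Submodule.starProjection_apply_mem _ _

lemma contDiff_bas {n : WithTop ℕ∞} (T : Submodule ℝ E) (z : E) : ContDiff ℝ n (bas T z) :=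
  T.starProjection.contDiff.sub contDiff_const

lemma contDiff_hgt {n : WithTop ℕ∞} (T : Submodule ℝ E) (c : E) : ContDiff ℝ n (hgt T c) :=
  (co T).contDiff.sub contDiff_const

lemma hasFDerivAt_bas (T : Submodule ℝ E) (z y : E) : HasFDerivAt (bas T z) T.starProjection y :=
  T.starProjection.hasFDerivAt.sub_const z

lemma hasFDerivAt_hgt (T : Submodule ℝ E) (c y : E) : HasFDerivAt (hgt T c) (co T) y :=
  (co T).hasFDerivAt.sub_const c

/-- derivative of `g (‖w y‖²)` -/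
lemma hasFDerivAt_sq {g : ℝ → ℝ} {g' : ℝ} {w : E → E} {w' : E →L[ℝ] E} {y : E}
    (hw : HasFDerivAt w w' y) (hg : HasDerivAt g g' (‖w y‖ ^ 2)) :
    HasFDerivAt (fun y => g (‖w y‖ ^ 2)) ((2 * g') • ((innerSL ℝ (w y)).comp w')) y := by
  have h1 : HasFDerivAt (fun y => ‖w y‖ ^ 2) (2 • (innerSL ℝ (w y)).comp w') y := hw.norm_sq
  have h2 := hg.comp_hasFDerivAt y h1
  refine h2.congr_fderiv ?_
  ext v
  simp
  ring

/-- radial base profile -/
noncomputable def rad (T : Submodule ℝ E) (z : E) (k : ℝ → ℝ) (y : E) : ℝ := k (‖bas T z y‖ ^ 2)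

lemma contDiff_rad {n : WithTop ℕ∞} (T : Submodule ℝ E) (z : E) {k : ℝ → ℝ} (hk : ContDiff ℝ n k) :
    ContDiff ℝ n (rad T z k) :=
  hk.comp ((contDiff_bas T z).norm_sq ℝ)

lemma fderiv_rad {T : Submodule ℝ E} {z : E} (hz : z ∈ T) {k : ℝ → ℝ} {y : E}
    (hk : DifferentiableAt ℝ k (‖bas T z y‖ ^ 2)) (v : E) :
    fderiv ℝ (rad T z k) y v = 2 * deriv k (‖bas T z y‖ ^ 2) * ⟪bas T z y, v⟫ := by
  have h := (hasFDerivAt_sq (hasFDerivAt_bas T z y) hk.hasDerivAt).fderiv
  have h' : fderiv ℝ (rad T z k) y = (2 * deriv k (‖bas T z y‖ ^ 2)) •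
      ((innerSL ℝ (bas T z y)).comp T.starProjection) := h
  rw [h']
  simp only [ContinuousLinearMap.smul_apply, ContinuousLinearMap.comp_apply, innerSL_apply_apply,
    smul_eq_mul]
  rw [← inner_star, Submodule.starProjection_eq_self_iff.2 (bas_mem hz y)]

/-- height profile -/
noncomputable def vrad (T : Submodule ℝ E) (c : E) (k : ℝ → ℝ) (y : E) : ℝ := k (‖hgt T c y‖ ^ 2)

lemma contDiff_vrad {n : WithTop ℕ∞} (T : Submodule ℝ E) (c : E) {k : ℝ → ℝ} (hk : ContDiff ℝ n k) :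
    ContDiff ℝ n (vrad T c k) :=
  hk.comp ((contDiff_hgt T c).norm_sq ℝ)

lemma fderiv_vrad {T : Submodule ℝ E} {c : E} (hc : c ∈ Tᗮ) {k : ℝ → ℝ} {y : E}
    (hk : DifferentiableAt ℝ k (‖hgt T c y‖ ^ 2)) (v : E) :
    fderiv ℝ (vrad T c k) y v = 2 * deriv k (‖hgt T c y‖ ^ 2) * ⟪hgt T c y, v⟫ := by
  have h := (hasFDerivAt_sq (hasFDerivAt_hgt T c y) hk.hasDerivAt).fderiv
  have h' : fderiv ℝ (vrad T c k) y = (2 * deriv k (‖hgt T c y‖ ^ 2)) •
      ((innerSL ℝ (hgt T c y)).comp (co T)) := h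
  rw [h']
  simp only [ContinuousLinearMap.smul_apply, ContinuousLinearMap.comp_apply, innerSL_apply_apply,
    smul_eq_mul]
  have h2 : co T (hgt T c y) = hgt T c y := by
    rw [co_eq]; exact Submodule.starProjection_eq_self_iff.2 (hgt_mem hc y)
  rw [← inner_co, h2]

/-- base support of a radial profile -/
lemma baseCpt_rad {T : Submodule ℝ E} {G : Set E} {z : E} {k : ℝ → ℝ} {R : ℝ}
    (hG : ∀ x ∈ T, ‖x - z‖ ≤ R → x ∈ G) (hR : 0 ≤ R) (hk : ∀ s, R ^ 2 < s → k s = 0) :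
    BaseCpt T G (rad T z k) := by
  refine ⟨closedBall z R ∩ T, ?_, ?_, ?_⟩
  · exact (isCompact_closedBall z R).inter_right T.closed_of_finiteDimensional
  · rintro x ⟨h1, h2⟩
    exact hG x h2 (by simpa [dist_eq_norm] using h1)
  · intro y hy
    refine hk _ ?_
    have h1 : T.starProjection y ∉ closedBall z R := fun h =>
      hy ⟨h, T.starProjection_apply_mem y⟩
    rw [mem_closedBall, dist_eq_norm, not_le] at h1
    exact pow_lt_pow_left₀ h1 hR (by norm_num)

/-- functions of the base point -/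
lemma baseCpt_comp {T : Submodule ℝ E} {G : Set E} {F : Type*} [Zero F] {φ : E → F} {K : Set E}
    (hK : IsCompact K) (hKG : K ⊆ G) (h0 : ∀ x, x ∉ K → φ x = 0) :
    BaseCpt T G (fun y => φ (T.starProjection y)) :=
  ⟨K, hK, hKG, fun y hy => h0 _ hy⟩

lemma BaseCpt.mul_right {T : Submodule ℝ E} {G : Set E} {φ ψ : E → ℝ} (h : BaseCpt T G φ) :
    BaseCpt T G (fun y => φ y * ψ y) := by
  obtain ⟨K, hK, hKG, h0⟩ := h
  exact ⟨K, hK, hKG, fun y hy => by simp [h0 y hy]⟩

lemma BaseCpt.mono {T : Submodule ℝ E} {G G' : Set E} {F : Type*} [Zero F] {φ : E → F}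
    (h : BaseCpt T G φ) (hG : G ⊆ G') : BaseCpt T G' φ := by
  obtain ⟨K, hK, hKG, h0⟩ := h
  exact ⟨K, hK, hKG.trans hG, h0⟩

variable [MeasurableSpace E] [BorelSpace E]
variable {m : ℕ} {T : Submodule ℝ E} {G : Set E} {h : ℝ} {ν : Measure E} {P : E → E →L[ℝ] E}

/-- **Inner variation**, `X = φ p Z(y)`: general horizontal field -/
lemma CylStat.inner (hC : CylStat m T G h ν P) {Z : E → E} (hZ : ContDiff ℝ 1 Z)
    (hb : BaseCpt T G (fun y => Z (T.starProjection y))) :
    ∫ y, tr ((fderiv ℝ Z (T.starProjection y)).comp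
      (T.starProjection.comp ((P y).comp T.starProjection))) ∂ν = 0 := by
  have hX : ContDiff ℝ 1 (fun y => T.starProjection (Z (T.starProjection y))) :=
    T.starProjection.contDiff.comp (hZ.comp T.starProjection.contDiff)
  rw [← hC.stat _ hX (hb.comp_zero (fun y hy => by simp [hy]))]
  refine integral_congr_ae (Eventually.of_forall fun y => ?_)
  have h1 : HasFDerivAt (fun y => T.starProjection (Z (T.starProjection y)))
      (T.starProjection.comp ((fderiv ℝ Z (T.starProjection y)).comp T.starProjection)) y :=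
    T.starProjection.hasFDerivAt.comp y
      ((hZ.differentiable (by norm_num) _).hasFDerivAt.comp y T.starProjection.hasFDerivAt)
  simp only [h1.fderiv]
  rw [tr_comp_comm]
  rw [show (T.starProjection.comp ((fderiv ℝ Z (T.starProjection y)).comp T.starProjection)).comp
    (P y) = T.starProjection.comp (((fderiv ℝ Z (T.starProjection y)).comp T.starProjection).comp
    (P y)) from rfl, tr_comp_comm T.starProjection]
  rw [← tr_comp_comm (fderiv ℝ Z (T.starProjection y))]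
  rfl

/-- **Horizontal virial identity**: `∫ φ tr(pP) + Dφ(P (p y - z)) = 0` -/
lemma CylStat.virial (hC : CylStat m T G h ν P) {z : E} (hz : z ∈ T) {φ : E → ℝ}
    (hφ : ContDiff ℝ 1 φ) (hb : BaseCpt T G φ) :
    ∫ y, (φ y * tr (T.starProjection.comp (P y)) + fderiv ℝ φ y (P y (bas T z y))) ∂ν = 0 := by
  rw [← hC.linear T.starProjection z hφ hb]
  refine integral_congr_ae (Eventually.of_forall fun y => ?_)
  simp only [bas, map_sub, Submodule.starProjection_eq_self_iff.2 hz]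

/-- **Vertical virial identity**: `∫ φ tr(qP) + Dφ(P (q y - c)) = 0` -/
lemma CylStat.outer (hC : CylStat m T G h ν P) {c : E} (hc : c ∈ Tᗮ) {φ : E → ℝ}
    (hφ : ContDiff ℝ 1 φ) (hb : BaseCpt T G φ) :
    ∫ y, (φ y * tilt T (P y) + fderiv ℝ φ y (P y (hgt T c y))) ∂ν = 0 := by
  rw [← hC.linear (co T) c hφ hb]
  refine integral_congr_ae (Eventually.of_forall fun y => ?_)
  have : co T c = c := by rw [co_eq]; exact Submodule.starProjection_eq_self_iff.2 hc
  simp only [hgt, map_sub, this, tilt]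

/-- radial virial: `∫ k tr(pP) + 2 k' ⟪x, P x⟫ = 0`, `x = p y - z`, profiles in `s = |x|²` -/
lemma CylStat.virial_rad (hC : CylStat m T G h ν P) {z : E} (hz : z ∈ T) {k : ℝ → ℝ}
    (hk : ContDiff ℝ 1 k) {R : ℝ} (hG : ∀ x ∈ T, ‖x - z‖ ≤ R → x ∈ G) (hR : 0 ≤ R)
    (hk0 : ∀ s, R ^ 2 < s → k s = 0) :
    ∫ y, (k (‖bas T z y‖ ^ 2) * tr (T.starProjection.comp (P y)) +
      2 * deriv k (‖bas T z y‖ ^ 2) * ⟪bas T z y, P y (bas T z y)⟫) ∂ν = 0 := by
  rw [← hC.virial hz (contDiff_rad T z hk) (baseCpt_rad hG hR hk0)]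
  refine integral_congr_ae (Eventually.of_forall fun y => ?_)
  simp only [fderiv_rad hz (hk.differentiable (by norm_num) _), rad]

/-- radial outer identity: `∫ k tilt + 2 k' ⟪x, P w⟫ = 0`, `x = p y - z`, `w = q y - c` -/
lemma CylStat.outer_rad (hC : CylStat m T G h ν P) {z c : E} (hz : z ∈ T) (hc : c ∈ Tᗮ)
    {k : ℝ → ℝ} (hk : ContDiff ℝ 1 k) {R : ℝ} (hG : ∀ x ∈ T, ‖x - z‖ ≤ R → x ∈ G) (hR : 0 ≤ R)
    (hk0 : ∀ s, R ^ 2 < s → k s = 0) :
    ∫ y, (k (‖bas T z y‖ ^ 2) * tilt T (P y) +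
      2 * deriv k (‖bas T z y‖ ^ 2) * ⟪bas T z y, P y (hgt T c y)⟫) ∂ν = 0 := by
  rw [← hC.outer hc (contDiff_rad T z hk) (baseCpt_rad hG hR hk0)]
  refine integral_congr_ae (Eventually.of_forall fun y => ?_)
  simp only [fderiv_rad hz (hk.differentiable (by norm_num) _), rad]

end Vale.Agent.P214.FV
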