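import Vale.Agent.P214.FV.Trunc
import Mathlib.Analysis.SpecialFunctions.Log.Deriv

/-!
# P214, block FV: soft minimum of finitely many functions (smooth staircases)

`sm β f = -(1/β) log ((1/N) ∑ exp (-β f_i))`.  For `f_i = |q y - c_i|²/2` this is a smooth
substitute of `min_i |q y - c_i|²/2`: `min ≤ F ≤ min + log N / β`, `|∇F|² ≤ 2F`, `p ∇F = 0`,
`hess F P ≤ tilt P`.
-/

open Set Filter Topology MeasureTheory Metric
open scoped RealInnerProductSpace

set_option linter.all false

namespace Vale.Agent.P214.FV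

variable {E : Type*} [NormedAddCommGroup E] [InnerProductSpace ℝ E] [FiniteDimensional ℝ E]
variable {ι : Type*} [Fintype ι] [Nonempty ι]

/-- the average of `exp (-β f_i)` -/
noncomputable def avexp (β : ℝ) (f : ι → E → ℝ) (y : E) : ℝ :=
  (∑ i, Real.exp (-β * f i y)) / Fintype.card ι

/-- soft minimum -/
noncomputable def sm (β : ℝ) (f : ι → E → ℝ) (y : E) : ℝ := -(1 / β) * Real.log (avexp β f y)

/-- the weights -/
noncomputable def wt (β : ℝ) (f : ι → E → ℝ) (i : ι) (y : E) : ℝ :=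
  Real.exp (β * (sm β f y - f i y)) / Fintype.card ι

variable {β : ℝ} {f : ι → E → ℝ}

lemma card_pos' : (0 : ℝ) < Fintype.card ι := by exact_mod_cast Fintype.card_pos

lemma avexp_pos (β : ℝ) (f : ι → E → ℝ) (y : E) : 0 < avexp β f y :=
  div_pos (Finset.sum_pos (fun i _ => Real.exp_pos _) Finset.univ_nonempty) card_pos'

lemma avexp_eq (hβ : 0 < β) (y : E) : avexp β f y = Real.exp (-β * sm β f y) := by
  rw [sm]
  have : -β * (-(1 / β) * Real.log (avexp β f y)) = Real.log (avexp β f y) := by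
    field_simp
  rw [this, Real.exp_log (avexp_pos β f y)]

lemma wt_pos (i : ι) (y : E) : 0 < wt β f i y := div_pos (Real.exp_pos _) card_pos'

lemma wt_eq (hβ : 0 < β) (i : ι) (y : E) :
    wt β f i y = Real.exp (-β * f i y) / (avexp β f y * Fintype.card ι) := by
  rw [wt, avexp_eq hβ]
  rw [show β * (sm β f y - f i y) = -β * f i y - (-β * sm β f y) by ring, Real.exp_sub]
  have := card_pos' (ι := ι)
  field_simp

lemma sum_wt (hβ : 0 < β) (y : E) : ∑ i, wt β f i y = 1 := by
  simp only [wt_eq hβ]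
  rw [← Finset.sum_div, avexp]
  have h1 : 0 < ∑ i, Real.exp (-β * f i y) :=
    Finset.sum_pos (fun i _ => Real.exp_pos _) Finset.univ_nonempty
  have := card_pos' (ι := ι)
  field_simp

/-- upper bound -/
lemma sm_le (hβ : 0 < β) (i : ι) (y : E) :
    sm β f y ≤ f i y + Real.log (Fintype.card ι) / β := by
  have h1 : Real.exp (-β * f i y) / Fintype.card ι ≤ avexp β f y := by
    rw [avexp]
    have := card_pos' (ι := ι)
    gcongr
    exact Finset.single_le_sum (f := fun i => Real.exp (-β * f i y))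
      (fun i _ => (Real.exp_pos _).le) (Finset.mem_univ i)
  have h2 := Real.log_le_log (div_pos (Real.exp_pos _) card_pos') h1
  rw [Real.log_div (Real.exp_pos _).ne' card_pos'.ne', Real.log_exp] at h2
  rw [sm, neg_mul, neg_le_iff_add_nonneg]
  have h3 : 0 ≤ (1 / β) * (Real.log (avexp β f y) - (-β * f i y - Real.log (Fintype.card ι))) := by
    apply mul_nonneg (by positivity); linarith
  calc 0 ≤ _ := h3
    _ = _ := by field_simp; ring

/-- lower bound -/
lemma le_sm (hβ : 0 < β) {a : ℝ} {y : E} (ha : ∀ i, a ≤ f i y) : a ≤ sm β f y := by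
  have h1 : avexp β f y ≤ Real.exp (-β * a) := by
    rw [avexp, div_le_iff₀ card_pos']
    calc ∑ i, Real.exp (-β * f i y) ≤ ∑ _i : ι, Real.exp (-β * a) := by
          refine Finset.sum_le_sum fun i _ => Real.exp_le_exp.2 ?_
          nlinarith [ha i]
      _ = _ := by simp; ring
  have h2 := Real.log_le_log (avexp_pos β f y) h1
  rw [Real.log_exp] at h2
  rw [sm]
  have h3 : 0 ≤ (1 / β) * (-β * a - Real.log (avexp β f y)) :=
    mul_nonneg (by positivity) (by linarith)
  have h4 : (1 / β) * (-β * a - Real.log (avexp β f y)) = -a + -(1 / β) * Real.log (avexp β f y) := by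
    field_simp
    ring
  linarith

/-- entropy inequality: the weighted mean of the `f_i` is below the soft minimum -/
lemma sum_wt_le (hβ : 0 < β) (y : E) : ∑ i, wt β f i y * f i y ≤ sm β f y := by
  -- `∑ w_i (F - f_i) ≥ 0` because `w_i = exp(β(F-f_i))/N`, `x e^x ≥ e^x - 1`
  have h1 : ∀ i, wt β f i y - 1 / Fintype.card ι ≤ wt β f i y * (β * (sm β f y - f i y)) := by
    intro i
    set x := β * (sm β f y - f i y) with hx
    have h2 : 1 - x ≤ Real.exp (-x) := by linarith [Real.add_one_le_exp (-x)]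
    have h3 : Real.exp x * (1 - x) ≤ 1 := by
      calc Real.exp x * (1 - x) ≤ Real.exp x * Real.exp (-x) := by gcongr
        _ = 1 := by rw [← Real.exp_add]; simp
    rw [wt, ← hx, div_mul_eq_mul_div, ← sub_nonneg, ← sub_div, ← sub_div]
    apply div_nonneg _ card_pos'.le
    nlinarith
  have h4 := Finset.sum_le_sum fun i (_ : i ∈ Finset.univ) => h1 i
  rw [Finset.sum_sub_distrib, sum_wt hβ] at h4
  have h5 : ∑ _i : ι, (1 : ℝ) / Fintype.card ι = 1 := by
    rw [Finset.sum_const, Finset.card_univ, nsmul_eq_mul]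
    have := card_pos' (ι := ι)
    field_simp
  rw [h5, sub_self] at h4
  have h6 : ∑ i, wt β f i y * (β * (sm β f y - f i y)) =
      β * (sm β f y - ∑ i, wt β f i y * f i y) := by
    have : ∀ i, wt β f i y * (β * (sm β f y - f i y)) =
        β * (wt β f i y * sm β f y) - β * (wt β f i y * f i y) := fun i => by ring
    simp only [this]
    rw [Finset.sum_sub_distrib, ← Finset.mul_sum, ← Finset.mul_sum, ← Finset.sum_mul, sum_wt hβ]
    ring
  rw [h6] at h4
  have := (mul_nonneg_iff_of_pos_left hβ).1 h4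
  linarith

section deriv

variable (hf : ∀ i, ContDiff ℝ 2 (f i))

include hf

lemma contDiff_sm : ContDiff ℝ 2 (sm β f) := by
  have h1 : ContDiff ℝ 2 (avexp β f) := by
    unfold avexp
    refine ContDiff.div_const (ContDiff.sum fun i _ => ?_) _
    exact (contDiff_const.mul (hf i)).exp
  exact contDiff_const.mul (h1.log fun y => (avexp_pos β f y).ne')

lemma hasFDerivAt_sm (hβ : 0 < β) (y : E) :
    HasFDerivAt (sm β f) (∑ i, wt β f i y • fderiv ℝ (f i) y) y := by
  have hd : ∀ i, HasFDerivAt (f i) (fderiv ℝ (f i) y) y := fun i =>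
    ((hf i).differentiable (by norm_num) y).hasFDerivAt
  have h1 : HasFDerivAt (fun y => ∑ i, Real.exp (-β * f i y))
      (∑ i, Real.exp (-β * f i y) • ((-β) • fderiv ℝ (f i) y)) y :=
    HasFDerivAt.fun_sum fun i _ => ((hd i).const_mul (-β)).exp
  have h2 : HasFDerivAt (avexp β f)
      ((1 / (Fintype.card ι : ℝ)) • (∑ i, Real.exp (-β * f i y) • ((-β) • fderiv ℝ (f i) y))) y := by
    have := h1.const_mul (1 / (Fintype.card ι : ℝ))
    refine this.congr_of_eventuallyEq (Eventually.of_forall fun z => ?_)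
    simp only [avexp]; ring
  have h3 := (h2.log (avexp_pos β f y).ne').const_mul (-(1 / β))
  refine h3.congr_fderiv ?_
  simp only [Finset.smul_sum, smul_smul]
  refine Finset.sum_congr rfl fun i _ => ?_
  congr 1
  rw [wt_eq hβ]
  have := card_pos' (ι := ι)
  have := avexp_pos β f y
  field_simp

lemma fderiv_sm (hβ : 0 < β) (y v : E) :
    fderiv ℝ (sm β f) y v = ∑ i, wt β f i y * fderiv ℝ (f i) y v := by
  rw [(hasFDerivAt_sm hf hβ y).fderiv]
  simp [ContinuousLinearMap.sum_apply]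

lemma hasFDerivAt_wt (hβ : 0 < β) (i : ι) (y : E) :
    HasFDerivAt (wt β f i) ((β * wt β f i y) • (fderiv ℝ (sm β f) y - fderiv ℝ (f i) y)) y := by
  have h1 : HasFDerivAt (sm β f) (fderiv ℝ (sm β f) y) y :=
    ((contDiff_sm hf).differentiable (by norm_num) y).hasFDerivAt
  have h2 : HasFDerivAt (f i) (fderiv ℝ (f i) y) y :=
    ((hf i).differentiable (by norm_num) y).hasFDerivAt
  have h3 := (((h1.sub h2).const_mul β).exp).const_mul (1 / (Fintype.card ι : ℝ))
  have h4 : HasFDerivAt (wt β f i) _ y :=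
    h3.congr_of_eventuallyEq (Eventually.of_forall fun z => by
      simp only [wt, Pi.sub_apply]; ring)
  refine h4.congr_fderiv ?_
  simp only [smul_smul, Pi.sub_apply]
  congr 1
  rw [wt]
  ring

/-- second derivative -/
lemma fderiv_fderiv_sm (hβ : 0 < β) (y u v : E) :
    fderiv ℝ (fderiv ℝ (sm β f)) y u v =
      ∑ i, wt β f i y * fderiv ℝ (fderiv ℝ (f i)) y u v -
      β * (∑ i, wt β f i y * (fderiv ℝ (f i) y u * fderiv ℝ (f i) y v) -
        fderiv ℝ (sm β f) y u * fderiv ℝ (sm β f) y v) := by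
  have h1 : fderiv ℝ (sm β f) = fun y => ∑ i, wt β f i y • fderiv ℝ (f i) y := by
    funext y; exact (hasFDerivAt_sm hf hβ y).fderiv
  have h2 : ∀ i, HasFDerivAt (fderiv ℝ (f i)) (fderiv ℝ (fderiv ℝ (f i)) y) y := fun i => by
    have : ContDiff ℝ 1 (fderiv ℝ (f i)) := (hf i).fderiv_right (by norm_num)
    exact (this.differentiable (by norm_num) y).hasFDerivAt
  have h3 : HasFDerivAt (fun y => ∑ i, wt β f i y • fderiv ℝ (f i) y)
      (∑ i, (wt β f i y • fderiv ℝ (fderiv ℝ (f i)) y +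
        ((β * wt β f i y) • (fderiv ℝ (sm β f) y - fderiv ℝ (f i) y)).smulRight (fderiv ℝ (f i) y))) y :=
    HasFDerivAt.fun_sum fun i _ => (hasFDerivAt_wt hf hβ i y).smul (h2 i)
  have h4 : fderiv ℝ (fderiv ℝ (sm β f)) y u v =
      ∑ i, (wt β f i y * fderiv ℝ (fderiv ℝ (f i)) y u v +
        β * wt β f i y * (fderiv ℝ (sm β f) y u - fderiv ℝ (f i) y u) * fderiv ℝ (f i) y v) := by
    conv_lhs => rw [h1, h3.fderiv]
    simp [ContinuousLinearMap.sum_apply]
  rw [h4, Finset.sum_add_distrib]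
  have h5 : ∑ i, β * wt β f i y * (fderiv ℝ (sm β f) y u - fderiv ℝ (f i) y u) * fderiv ℝ (f i) y v =
      β * (fderiv ℝ (sm β f) y u * ∑ i, wt β f i y * fderiv ℝ (f i) y v) -
      β * ∑ i, wt β f i y * (fderiv ℝ (f i) y u * fderiv ℝ (f i) y v) := by
    rw [Finset.mul_sum, Finset.mul_sum, Finset.mul_sum, ← Finset.sum_sub_distrib]
    refine Finset.sum_congr rfl fun i _ => ?_
    ring
  rw [h5, ← fderiv_sm hf hβ]
  ring

/-- **hessian trace of the soft minimum along a plane** -/
lemma hess_sm_le (hβ : 0 < β) (S : Submodule ℝ E) (y : E) :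
    hess (sm β f) S.starProjection y ≤ ∑ i, wt β f i y * hess (f i) S.starProjection y := by
  set b := stdOrthonormalBasis ℝ E with hb
  rw [hess_eq_sum (contDiff_sm hf) b]
  simp only [fderiv_fderiv_sm hf hβ]
  rw [Finset.sum_sub_distrib]
  have h1 : ∑ k, ∑ i, wt β f i y * fderiv ℝ (fderiv ℝ (f i)) y (S.starProjection (b k)) (b k) =
      ∑ i, wt β f i y * hess (f i) S.starProjection y := by
    rw [Finset.sum_comm]
    refine Finset.sum_congr rfl fun i _ => ?_
    rw [hess_eq_sum (hf i) b, Finset.mul_sum]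
  rw [h1, sub_le_self_iff, ← Finset.mul_sum]
  refine mul_nonneg hβ.le ?_
  rw [Finset.sum_sub_distrib, Finset.sum_comm, sum_inner_eq S]
  have h2 : ∀ i, ∑ k, wt β f i y * (fderiv ℝ (f i) y (S.starProjection (b k)) * fderiv ℝ (f i) y (b k))
      = ∑ k, wt β f i y * (fderiv ℝ (f i) y (S.starProjection (b k)) *
        fderiv ℝ (f i) y (S.starProjection (b k))) := by
    intro i
    rw [← Finset.mul_sum, sum_inner_eq S, Finset.mul_sum]
  rw [Finset.sum_congr rfl fun i _ => h2 i, Finset.sum_comm, ← Finset.sum_sub_distrib]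
  refine Finset.sum_nonneg fun k _ => ?_
  rw [fderiv_sm hf hβ]
  set a : ι → ℝ := fun i => fderiv ℝ (f i) y (S.starProjection (b k)) with ha
  have h3 : (∑ i, wt β f i y * a i) ^ 2 ≤ (∑ i, wt β f i y) * ∑ i, wt β f i y * (a i * a i) := by
    have := Finset.sum_sq_le_sum_mul_sum_of_sq_eq_mul Finset.univ
      (f := fun i => wt β f i y) (g := fun i => wt β f i y * (a i * a i))
      (r := fun i => wt β f i y * a i) (fun i _ => (wt_pos i y).le)
      (fun i _ => mul_nonneg (wt_pos i y).le (mul_self_nonneg _)) (fun i _ => by ring)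
    exact this
  rw [sum_wt hβ, one_mul] at h3
  have h4 : (∑ i, wt β f i y * a i) * (∑ i, wt β f i y * a i) = (∑ i, wt β f i y * a i) ^ 2 := by ring
  linarith

/-- gradient bound `|∇F|² ≤ 2F` -/
lemma norm_grad_sm_le (hβ : 0 < β) {y : E} (h : ∀ i, ‖grad (f i) y‖ ^ 2 ≤ 2 * f i y) :
    ‖grad (sm β f) y‖ ^ 2 ≤ 2 * sm β f y := by
  have h1 : grad (sm β f) y = ∑ i, wt β f i y • grad (f i) y := by
    refine ext_inner_right ℝ fun v => ?_
    rw [inner_grad, fderiv_sm hf hβ, sum_inner]
    refine Finset.sum_congr rfl fun i _ => ?_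
    rw [inner_smul_left, inner_grad]; rfl
  have h2 : ‖grad (sm β f) y‖ ≤ ∑ i, wt β f i y * ‖grad (f i) y‖ := by
    rw [h1]
    refine (norm_sum_le _ _).trans (Finset.sum_le_sum fun i _ => ?_)
    rw [norm_smul, Real.norm_eq_abs, abs_of_pos (wt_pos i y)]
  have h3 : (∑ i, wt β f i y * ‖grad (f i) y‖) ^ 2 ≤
      (∑ i, wt β f i y) * ∑ i, wt β f i y * (‖grad (f i) y‖ ^ 2) := by
    have := Finset.sum_sq_le_sum_mul_sum_of_sq_eq_mul Finset.univ
      (f := fun i => wt β f i y) (g := fun i => wt β f i y * (‖grad (f i) y‖ ^ 2))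
      (r := fun i => wt β f i y * ‖grad (f i) y‖) (fun i _ => (wt_pos i y).le)
      (fun i _ => mul_nonneg (wt_pos i y).le (by positivity)) (fun i _ => by ring)
    exact this
  rw [sum_wt hβ, one_mul] at h3
  calc ‖grad (sm β f) y‖ ^ 2 ≤ (∑ i, wt β f i y * ‖grad (f i) y‖) ^ 2 := by gcongr
    _ ≤ _ := h3
    _ ≤ ∑ i, wt β f i y * (2 * f i y) := by
        refine Finset.sum_le_sum fun i _ => ?_
        have := wt_pos (β := β) (f := f) i y
        gcongr
        exact h i
    _ = 2 * ∑ i, wt β f i y * f i y := by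
        rw [Finset.mul_sum]; refine Finset.sum_congr rfl fun i _ => by ring
    _ ≤ 2 * sm β f y := by gcongr; exact sum_wt_le hβ y

/-- if the gradients of the `f_i` lie in a subspace, so does the gradient of the soft minimum -/
lemma grad_sm_mem (hβ : 0 < β) {y : E} (M : Submodule ℝ E) (h : ∀ i, grad (f i) y ∈ M) :
    grad (sm β f) y ∈ M := by
  have h1 : grad (sm β f) y = ∑ i, wt β f i y • grad (f i) y := by
    refine ext_inner_right ℝ fun v => ?_
    rw [inner_grad, fderiv_sm hf hβ, sum_inner]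
    refine Finset.sum_congr rfl fun i _ => ?_
    rw [inner_smul_left, inner_grad]; rfl
  rw [h1]
  exact Submodule.sum_mem _ fun i _ => M.smul_mem _ (h i)

end deriv

/-! ### the smooth staircase around heights `c_i` -/

/-- half squared height about `c` -/
noncomputable def hsq (T : Submodule ℝ E) (c y : E) : ℝ := ‖hgt T c y‖ ^ 2 / 2

lemma contDiff_hsq {n : WithTop ℕ∞} (T : Submodule ℝ E) (c : E) : ContDiff ℝ n (hsq T c) :=
  ((contDiff_hgt T c).norm_sq ℝ).div_const 2

lemma grad_hsq {T : Submodule ℝ E} {c : E} (hc : c ∈ Tᗮ) (y : E) : grad (hsq T c) y = hgt T c y := by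
  refine ext_inner_right ℝ fun v => ?_
  rw [inner_grad]
  have hk : DifferentiableAt ℝ (fun s : ℝ => s / 2) (‖hgt T c y‖ ^ 2) := by fun_prop
  have hd : deriv (fun s : ℝ => s / 2) (‖hgt T c y‖ ^ 2) = 1 / 2 := by
    simp
  have h2 : hsq T c = vrad T c (fun s => s / 2) := rfl
  rw [h2, fderiv_vrad hc hk, hd]
  ring

/-- the smooth staircase -/
noncomputable def stair (T : Submodule ℝ E) (β : ℝ) (c : ι → E) : E → ℝ := sm β fun i => hsq T (c i)

variable {T : Submodule ℝ E} {c : ι → E}

lemma contDiff_stair : ContDiff ℝ 2 (stair T β c) := contDiff_sm fun i => contDiff_hsq T (c i)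

lemma stair_le (hβ : 0 < β) (i : ι) (y : E) :
    stair T β c y ≤ hsq T (c i) y + Real.log (Fintype.card ι) / β := sm_le hβ i y

lemma le_stair (hβ : 0 < β) {a : ℝ} {y : E} (ha : ∀ i, a ≤ hsq T (c i) y) : a ≤ stair T β c y :=
  le_sm hβ ha

lemma stair_nonneg (hβ : 0 < β) (y : E) : 0 ≤ stair T β c y :=
  le_stair hβ fun i => by unfold hsq; positivity

lemma norm_grad_stair_le (hβ : 0 < β) (hc : ∀ i, c i ∈ Tᗮ) (y : E) :
    ‖grad (stair T β c) y‖ ^ 2 ≤ 2 * stair T β c y := by
  refine norm_grad_sm_le (fun i => contDiff_hsq T (c i)) hβ fun i => ?_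
  rw [grad_hsq (hc i), hsq]
  linarith

lemma grad_stair_mem (hβ : 0 < β) (hc : ∀ i, c i ∈ Tᗮ) (y : E) : grad (stair T β c) y ∈ Tᗮ := by
  refine grad_sm_mem (fun i => contDiff_hsq T (c i)) hβ _ fun i => ?_
  rw [grad_hsq (hc i)]
  exact hgt_mem (hc i) y

lemma star_grad_stair (hβ : 0 < β) (hc : ∀ i, c i ∈ Tᗮ) (y : E) :
    T.starProjection (grad (stair T β c) y) = 0 := by
  have h := grad_stair_mem (T := T) hβ hc y
  have h2 : co T (grad (stair T β c) y) = grad (stair T β c) y := by
    rw [co_eq]; exact Submodule.starProjection_eq_self_iff.2 h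
  rw [co_apply] at h2
  simpa using h2

lemma hess_stair_le (hβ : 0 < β) (hc : ∀ i, c i ∈ Tᗮ) (S : Submodule ℝ E) (y : E) :
    hess (stair T β c) S.starProjection y ≤ tilt T S.starProjection := by
  refine (hess_sm_le (fun i => contDiff_hsq T (c i)) hβ S y).trans ?_
  have : ∀ i, hess (hsq T (c i)) S.starProjection y = tilt T S.starProjection := fun i =>
    hess_hgt_sq (hc i) _ y
  simp only [this]
  rw [← Finset.sum_mul, sum_wt hβ, one_mul]

end Vale.Agent.P214.FV
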