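import Vale.Agent.P214.FV.Second

/-!
# P214, block FV: chain rule and the truncated field

For `w : E → W` of class `C²`: `gsq w B y = ∑ ⟪Dw (B b_k), Dw b_k⟫` (for `B = P` this is
`|∇_V w|²`) and `lap w B y = ∑ D²w (B b_k) b_k` (for `B = P` this is `tr_P D²w`).
-/

open Set Filter Topology MeasureTheory Metric
open scoped RealInnerProductSpace

set_option linter.all false

namespace Vale.Agent.P214.FV

variable {E : Type*} [NormedAddCommGroup E] [InnerProductSpace ℝ E] [FiniteDimensional ℝ E]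
variable {W : Type*} [NormedAddCommGroup W] [InnerProductSpace ℝ W]

/-- `|∇_V w|²` -/
noncomputable def gsq (w : E → W) (B : E →L[ℝ] E) (y : E) : ℝ :=
  ∑ k, ⟪fderiv ℝ w y (B (stdOrthonormalBasis ℝ E k)), fderiv ℝ w y (stdOrthonormalBasis ℝ E k)⟫

/-- `tr_P D²w` -/
noncomputable def lap (w : E → W) (B : E →L[ℝ] E) (y : E) : W :=
  ∑ k, fderiv ℝ (fderiv ℝ w) y (B (stdOrthonormalBasis ℝ E k)) (stdOrthonormalBasis ℝ E k)

/-- second derivative of a composition -/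
lemma fderiv_fderiv_comp {Γ : W → ℝ} {w : E → W} (hΓ : ContDiff ℝ 2 Γ) (hw : ContDiff ℝ 2 w)
    (y u v : E) : fderiv ℝ (fderiv ℝ (fun y => Γ (w y))) y u v =
      fderiv ℝ (fderiv ℝ Γ) (w y) (fderiv ℝ w y u) (fderiv ℝ w y v) +
      fderiv ℝ Γ (w y) (fderiv ℝ (fderiv ℝ w) y u v) := by
  have hΓd : Differentiable ℝ Γ := hΓ.differentiable (by norm_num)
  have hwd : Differentiable ℝ w := hw.differentiable (by norm_num)
  have h1 : fderiv ℝ (fun y => Γ (w y)) = fun y => (fderiv ℝ Γ (w y)).comp (fderiv ℝ w y) := by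
    funext y
    exact ((hΓd (w y)).hasFDerivAt.comp y (hwd y).hasFDerivAt).fderiv
  rw [h1]
  have hΓ' : ContDiff ℝ 1 (fderiv ℝ Γ) := hΓ.fderiv_right (by norm_num)
  have hw' : ContDiff ℝ 1 (fderiv ℝ w) := hw.fderiv_right (by norm_num)
  have h2 : HasFDerivAt (fun y => fderiv ℝ Γ (w y))
      ((fderiv ℝ (fderiv ℝ Γ) (w y)).comp (fderiv ℝ w y)) y :=
    (hΓ'.differentiable (by norm_num) (w y)).hasFDerivAt.comp y (hwd y).hasFDerivAt
  have h3 : HasFDerivAt (fderiv ℝ w) (fderiv ℝ (fderiv ℝ w) y) y :=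
    (hw'.differentiable (by norm_num) y).hasFDerivAt
  have h4 := (h2.clm_comp h3).fderiv
  rw [h4]
  simp
  ring

/-- **chain rule for the hessian trace** -/
lemma hess_comp {Γ : W → ℝ} {w : E → W} (hΓ : ContDiff ℝ 2 Γ) (hw : ContDiff ℝ 2 w)
    (B : E →L[ℝ] E) (y : E) : hess (fun y => Γ (w y)) B y =
      ∑ k, fderiv ℝ (fderiv ℝ Γ) (w y) (fderiv ℝ w y (B (stdOrthonormalBasis ℝ E k)))
        (fderiv ℝ w y (stdOrthonormalBasis ℝ E k)) + fderiv ℝ Γ (w y) (lap w B y) := by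
  rw [hess_eq_sum (F := fun y => Γ (w y)) (hΓ.comp hw) (stdOrthonormalBasis ℝ E)]
  rw [lap, map_sum, ← Finset.sum_add_distrib]
  exact Finset.sum_congr rfl fun k _ => fderiv_fderiv_comp hΓ hw y _ _

/-- derivative of `g (‖w‖²)` on `W` -/
lemma fderiv_normsq {g : ℝ → ℝ} (hg : ContDiff ℝ 1 g) (w v : W) :
    fderiv ℝ (fun w : W => g (‖w‖ ^ 2)) w v = 2 * deriv g (‖w‖ ^ 2) * ⟪w, v⟫ := by
  have h1 : HasFDerivAt (fun w : W => ‖w‖ ^ 2) (2 • (innerSL ℝ w).comp (ContinuousLinearMap.id ℝ W)) w :=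
    (hasFDerivAt_id w).norm_sq
  have h2 := ((hg.differentiable (by norm_num) (‖w‖ ^ 2)).hasDerivAt.comp_hasFDerivAt w h1).fderiv
  have h3 : fderiv ℝ (fun w : W => g (‖w‖ ^ 2)) w = deriv g (‖w‖ ^ 2) •
      (2 • (innerSL ℝ w).comp (ContinuousLinearMap.id ℝ W)) := h2
  rw [h3]
  simp
  ring

/-- second derivative of `g (‖w‖²)` on `W` -/
lemma fderiv_fderiv_normsq {g : ℝ → ℝ} (hg : ContDiff ℝ 2 g) (w u v : W) :
    fderiv ℝ (fderiv ℝ (fun w : W => g (‖w‖ ^ 2))) w u v =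
      4 * deriv (deriv g) (‖w‖ ^ 2) * (⟪w, u⟫ * ⟪w, v⟫) + 2 * deriv g (‖w‖ ^ 2) * ⟪u, v⟫ := by
  have hg1 : ContDiff ℝ 1 g := hg.of_le (by norm_num)
  have hg' : ContDiff ℝ 1 (deriv g) := (contDiff_succ_iff_deriv.1 hg).2.2
  have h1 : fderiv ℝ (fun w : W => g (‖w‖ ^ 2)) =
      fun w => (2 * deriv g (‖w‖ ^ 2)) • (innerSL ℝ w) := by
    funext w
    ext v
    rw [fderiv_normsq hg1]
    simp
  rw [h1]
  have h2 : HasFDerivAt (fun w : W => ‖w‖ ^ 2) (2 • (innerSL ℝ w).comp (ContinuousLinearMap.id ℝ W)) w :=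
    (hasFDerivAt_id w).norm_sq
  have h3 : HasFDerivAt (fun w : W => 2 * deriv g (‖w‖ ^ 2))
      ((2 : ℝ) • (deriv (deriv g) (‖w‖ ^ 2) • (2 • (innerSL ℝ w).comp (ContinuousLinearMap.id ℝ W)))) w :=
    ((hg'.differentiable (by norm_num) _).hasDerivAt.comp_hasFDerivAt w h2).const_mul 2
  have h4 : HasFDerivAt (fun w : W => innerSL ℝ w) (innerSL ℝ : W →L[ℝ] W →L[ℝ] ℝ) w :=
    (innerSL ℝ : W →L[ℝ] W →L[ℝ] ℝ).hasFDerivAt
  have h5 := (h3.smul h4).fderiv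
  have h6 : fderiv ℝ (fun w : W => (2 * deriv g (‖w‖ ^ 2)) • (innerSL ℝ w)) w = _ := h5
  rw [h6]
  have h7 : ((innerSL ℝ : W →L[ℝ] W →L[ℝ] ℝ) u) v = ⟪u, v⟫ := rfl
  simp [h7]
  ring

lemma sum_inner_eq (S : Submodule ℝ E) (L : E →L[ℝ] ℝ) (M : E →L[ℝ] ℝ) :
    ∑ k, L (S.starProjection (stdOrthonormalBasis ℝ E k)) * M (stdOrthonormalBasis ℝ E k) =
    ∑ k, L (S.starProjection (stdOrthonormalBasis ℝ E k)) *
      M (S.starProjection (stdOrthonormalBasis ℝ E k)) := by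
  set b := stdOrthonormalBasis ℝ E
  set l := (InnerProductSpace.toDual ℝ E).symm L with hl
  set n := (InnerProductSpace.toDual ℝ E).symm M with hn
  have hL : ∀ v, L v = ⟪l, v⟫ := fun v => by simp [hl]
  have hM : ∀ v, M v = ⟪n, v⟫ := fun v => by simp [hn]
  simp only [hL, hM, ← inner_star S]
  have h1 : ∀ a c : E, ∑ k, ⟪a, b k⟫ * ⟪c, b k⟫ = ⟪a, c⟫ := by
    intro a c
    rw [← b.sum_inner_mul_inner a c]
    refine Finset.sum_congr rfl fun k _ => ?_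
    rw [real_inner_comm c]
  rw [h1, h1, ← inner_star S, star_self]

/-- `gsq w P = ∑ ‖Dw (P b_k)‖²` -/
lemma gsq_eq (w : E → W) (S : Submodule ℝ E) (y : E) [FiniteDimensional ℝ W] :
    gsq w S.starProjection y = ∑ k, ‖fderiv ℝ w y (S.starProjection (stdOrthonormalBasis ℝ E k))‖ ^ 2 := by
  set c := stdOrthonormalBasis ℝ W
  set b := stdOrthonormalBasis ℝ E
  have h1 : ∀ u v : W, ⟪u, v⟫ = ∑ i, ⟪c i, u⟫ * ⟪c i, v⟫ := fun u v => by
    rw [← c.sum_inner_mul_inner u v]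
    refine Finset.sum_congr rfl fun k _ => ?_
    rw [real_inner_comm u]
  have e1 : ∀ k, ⟪fderiv ℝ w y (S.starProjection (b k)), fderiv ℝ w y (b k)⟫ =
      ∑ i, ⟪c i, fderiv ℝ w y (S.starProjection (b k))⟫ * ⟪c i, fderiv ℝ w y (b k)⟫ := fun k => h1 _ _
  have e2 : ∀ k, ‖fderiv ℝ w y (S.starProjection (b k))‖ ^ 2 =
      ∑ i, ⟪c i, fderiv ℝ w y (S.starProjection (b k))⟫ *
        ⟪c i, fderiv ℝ w y (S.starProjection (b k))⟫ := fun k => by
    rw [← real_inner_self_eq_norm_sq]; exact h1 _ _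
  rw [gsq, Finset.sum_congr rfl (fun k _ => e1 k), Finset.sum_congr rfl (fun k _ => e2 k),
    Finset.sum_comm]
  conv_rhs => rw [Finset.sum_comm]
  refine Finset.sum_congr rfl fun i _ => ?_
  have := sum_inner_eq S ((innerSL ℝ (c i)).comp (fderiv ℝ w y)) ((innerSL ℝ (c i)).comp (fderiv ℝ w y))
  simpa using this

lemma gsq_nonneg [FiniteDimensional ℝ W] (w : E → W) (S : Submodule ℝ E) (y : E) :
    0 ≤ gsq w S.starProjection y := by
  rw [gsq_eq]; exact Finset.sum_nonneg fun _ _ => by positivity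

/-- the component along `a ∈ W` -/
lemma sum_inner_sq_le [FiniteDimensional ℝ W] (w : E → W) (S : Submodule ℝ E) (y : E) (a : W) :
    ∑ k, ⟪a, fderiv ℝ w y (S.starProjection (stdOrthonormalBasis ℝ E k))⟫ ^ 2 ≤
      ‖a‖ ^ 2 * gsq w S.starProjection y := by
  rw [gsq_eq, Finset.mul_sum]
  refine Finset.sum_le_sum fun k _ => ?_
  rw [← mul_pow, ← sq_abs]
  gcongr
  exact abs_real_inner_le_norm _ _

/-- the cross term `Dφ (P ∇(g(|w|²)))`-type: `|∑ Dφ(P b_k) ⟪a, Dw b_k⟫| ≤ ‖P∇φ‖ ‖a‖ √gsq` -/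
lemma abs_cross_le [FiniteDimensional ℝ W] (w : E → W) (S : Submodule ℝ E) (y : E) (a : W) (v : E) :
    |⟪a, fderiv ℝ w y (S.starProjection v)⟫| ≤ ‖S.starProjection v‖ * (‖a‖ * √(gsq w S.starProjection y)) := by
  set b := stdOrthonormalBasis ℝ E
  have h1 : ⟪a, fderiv ℝ w y (S.starProjection v)⟫ =
      ∑ k, ⟪b k, S.starProjection v⟫ * ⟪a, fderiv ℝ w y (S.starProjection (b k))⟫ := by
    have h2 : S.starProjection v = ∑ k, ⟪b k, S.starProjection v⟫ • S.starProjection (b k) := by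
      conv_lhs => rw [← star_self S v, ← b.sum_repr' (S.starProjection v)]
      simp only [map_sum, map_smul]
    conv_lhs => rw [h2]
    simp only [map_sum, map_smul, inner_sum, inner_smul_right]
  rw [h1]
  have h3 : (∑ k, ⟪b k, S.starProjection v⟫ * ⟪a, fderiv ℝ w y (S.starProjection (b k))⟫) ^ 2 ≤
      (∑ k, ⟪b k, S.starProjection v⟫ ^ 2) * ∑ k, ⟪a, fderiv ℝ w y (S.starProjection (b k))⟫ ^ 2 :=
    Finset.sum_mul_sq_le_sq_mul_sq _ _ _
  have h4 : ∑ k, ⟪b k, S.starProjection v⟫ ^ 2 = ‖S.starProjection v‖ ^ 2 := by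
    have := b.sum_sq_norm_inner_right (S.starProjection v)
    simpa using this
  refine abs_le_of_sq_le_sq ?_ (by positivity)
  calc _ ≤ _ := h3
    _ ≤ ‖S.starProjection v‖ ^ 2 * (‖a‖ ^ 2 * gsq w S.starProjection y) := by
        rw [h4]; gcongr; exact sum_inner_sq_le w S y a
    _ = _ := by
        rw [mul_pow, mul_pow, Real.sq_sqrt (gsq_nonneg w S y)]

end Vale.Agent.P214.FV
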