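import Vale.Agent.P214.Bdl.B1

/-!
# P214, block FV: first variation identities over `LocStat`

`trP A B` = trace of `A ∘ B` computed as `∑ ⟪b k, A (B (b k))⟫`.
`LocStat.vec`: stationarity for a general `C^1` compactly supported vector field.
`LocStat.linear`: the field `ψ(y) A (y - z)` with `A` linear.
-/

open Set Filter Topology MeasureTheory Metric
open scoped RealInnerProductSpace

set_option linter.all false

namespace Vale.Agent.P214.FV

variable {E : Type*} [NormedAddCommGroup E] [InnerProductSpace ℝ E] [FiniteDimensional ℝ E]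

/-- trace of an endomorphism -/
noncomputable def tr (A : E →L[ℝ] E) : ℝ := LinearMap.trace ℝ E (A : E →ₗ[ℝ] E)

lemma tr_eq_sum {ι : Type*} [Fintype ι] (b : OrthonormalBasis ι ℝ E) (A : E →L[ℝ] E) :
    tr A = ∑ k, ⟪b k, A (b k)⟫ := by
  unfold tr
  rw [LinearMap.trace_eq_sum_inner (A : E →ₗ[ℝ] E) b]
  simp

lemma tr_comp_comm (A B : E →L[ℝ] E) : tr (A.comp B) = tr (B.comp A) := by
  unfold tr
  have := LinearMap.trace_mul_comm ℝ (A : E →ₗ[ℝ] E) (B : E →ₗ[ℝ] E)
  simpa [Module.End.mul_eq_comp] using this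

lemma tr_add (A B : E →L[ℝ] E) : tr (A + B) = tr A + tr B := by
  simp [tr, map_add]

lemma tr_sub (A B : E →L[ℝ] E) : tr (A - B) = tr A - tr B := by
  simp [tr, map_sub]

lemma tr_smul (c : ℝ) (A : E →L[ℝ] E) : tr (c • A) = c * tr A := by
  simp [tr]

lemma tr_zero : tr (0 : E →L[ℝ] E) = 0 := by simp [tr]

lemma tr_starProjection (T : Submodule ℝ E) : tr T.starProjection = Module.finrank ℝ T := by
  have h2 : LinearMap.IsProj T (T.starProjection : E →ₗ[ℝ] E) :=
    { map_mem := fun x => T.starProjection_apply_mem x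
      map_id := fun x hx => by simpa using (Submodule.starProjection_eq_self_iff).2 hx }
  exact h2.trace

/-- trace of a rank one operator -/
lemma tr_smulRight (f : E →L[ℝ] ℝ) (v : E) : tr (f.smulRight v) = f v := by
  rw [tr_eq_sum (stdOrthonormalBasis ℝ E)]
  set b := stdOrthonormalBasis ℝ E
  have : ∀ k, ⟪b k, (f.smulRight v) (b k)⟫ = ⟪b k, v⟫ * f (b k) := by
    intro k
    simp [inner_smul_right]
    ring
  simp only [this]
  conv_rhs => rw [← b.sum_repr' v]
  simp only [map_sum, map_smul, smul_eq_mul]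

lemma continuous_tr : Continuous (tr : (E →L[ℝ] E) → ℝ) := by
  have : (tr : (E →L[ℝ] E) → ℝ) = fun A => ∑ k, ⟪stdOrthonormalBasis ℝ E k,
      A (stdOrthonormalBasis ℝ E k)⟫ := by
    funext A
    exact tr_eq_sum _ A
  rw [this]
  refine continuous_finsetSum _ fun k _ => ?_
  exact continuous_const.inner (ContinuousLinearMap.apply ℝ E _).continuous

lemma abs_tr_le (A : E →L[ℝ] E) : |tr A| ≤ Module.finrank ℝ E * ‖A‖ := by
  rw [tr_eq_sum (stdOrthonormalBasis ℝ E)]
  set b := stdOrthonormalBasis ℝ E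
  calc |∑ k, ⟪b k, A (b k)⟫| ≤ ∑ k, |⟪b k, A (b k)⟫| := Finset.abs_sum_le_sum_abs _ _
    _ ≤ ∑ _k : Fin (Module.finrank ℝ E), ‖A‖ := by
        refine Finset.sum_le_sum fun k _ => ?_
        calc |⟪b k, A (b k)⟫| ≤ ‖b k‖ * ‖A (b k)‖ := abs_real_inner_le_norm _ _
          _ ≤ 1 * (‖A‖ * 1) := by
              rw [b.norm_eq_one]
              gcongr
              have := A.le_opNorm (b k)
              rwa [b.norm_eq_one] at this
          _ = ‖A‖ := by ring
    _ = Module.finrank ℝ E * ‖A‖ := by simp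

variable [MeasurableSpace E] [BorelSpace E]
variable {m : ℕ} {O : Set E} {ν : Measure E} {P : E → E →L[ℝ] E}

lemma LocStat.integrable_tr [IsFiniteMeasure ν] (h : LocStat m O ν P) {B : E → E →L[ℝ] E}
    (hB : Continuous B) (hc : HasCompactSupport B) :
    Integrable (fun y => tr ((B y).comp (P y))) ν := by
  have hmeas : AEStronglyMeasurable (fun y => tr ((B y).comp (P y))) ν := by
    refine continuous_tr.comp_aestronglyMeasurable ?_
    have : Continuous fun p : (E →L[ℝ] E) × (E →L[ℝ] E) => p.1.comp p.2 := by fun_prop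
    exact this.comp_aestronglyMeasurable (hB.aestronglyMeasurable.prodMk h.meas)
  obtain ⟨C, hC⟩ := hB.bounded_above_of_compact_support hc
  refine Integrable.mono' (integrable_const ((Module.finrank ℝ E : ℝ) * C)) hmeas ?_
  filter_upwards [Vale.Agent.P214.LocStat.norm_le h] with y hy
  rw [Real.norm_eq_abs]
  refine (abs_tr_le _).trans ?_
  gcongr
  calc ‖(B y).comp (P y)‖ ≤ ‖B y‖ * ‖P y‖ := ContinuousLinearMap.opNorm_comp_le _ _
    _ ≤ C * 1 := by
        gcongr
        · exact (norm_nonneg _).trans (hC y)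
        · exact hC y
    _ = C := mul_one C

/-- **Stationarity for a general vector field.** -/
lemma LocStat.vec [IsFiniteMeasure ν] (h : LocStat m O ν P) {X : E → E}
    (hX : ContDiff ℝ 1 X) (hc : HasCompactSupport X) (hs : tsupport X ⊆ O) :
    ∫ y, tr ((fderiv ℝ X y).comp (P y)) ∂ν = 0 := by
  set b := stdOrthonormalBasis ℝ E with hb
  set F : Fin (Module.finrank ℝ E) → E → ℝ := fun k y => ⟪b k, X y⟫ with hF
  have hFc : ∀ k, ContDiff ℝ 1 (F k) := fun k => contDiff_const.inner ℝ hX
  have hFs : ∀ k, HasCompactSupport (F k) := fun k =>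
    hc.mono (fun y hy => by
      rw [Function.mem_support] at hy ⊢
      intro h0
      apply hy
      simp [hF, h0])
  have hFt : ∀ k, tsupport (F k) ⊆ O := fun k => by
    refine (closure_mono ?_).trans hs
    intro y hy
    rw [Function.mem_support] at hy ⊢
    intro h0
    apply hy
    simp [hF, h0]
  have hder : ∀ k y w, fderiv ℝ (F k) y w = ⟪b k, fderiv ℝ X y w⟫ := by
    intro k y w
    have h1 : HasFDerivAt X (fderiv ℝ X y) y := (hX.differentiable (by norm_num) y).hasFDerivAt
    have h2 : HasFDerivAt (fun y => ⟪b k, X y⟫) ((innerSL ℝ (b k)).comp (fderiv ℝ X y)) y :=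
      (innerSL ℝ (b k)).hasFDerivAt.comp y h1
    have h3 : fderiv ℝ (F k) y = (innerSL ℝ (b k)).comp (fderiv ℝ X y) := h2.fderiv
    rw [h3]
    rfl
  have hstat : ∀ k, ∫ y, fderiv ℝ (F k) y (P y (b k)) ∂ν = 0 := fun k =>
    h.stat (F k) (b k) (hFc k) (hFs k) (hFt k)
  have hint : ∀ k, Integrable (fun y => fderiv ℝ (F k) y (P y (b k))) ν := fun k =>
    h.integrable_fderiv (hFc k) (hFs k) continuous_const
  have hsum : ∫ y, ∑ k, fderiv ℝ (F k) y (P y (b k)) ∂ν = 0 := by
    rw [integral_finsetSum _ fun k _ => hint k]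
    exact Finset.sum_eq_zero fun k _ => hstat k
  rw [← hsum]
  refine integral_congr_ae (Eventually.of_forall fun y => ?_)
  simp only [hder]
  rw [tr_eq_sum b]
  rfl

/-- derivative of `ψ(y) A (y - z)` -/
lemma hasFDerivAt_smul_linear {ψ : E → ℝ} {y : E} (hψ : DifferentiableAt ℝ ψ y)
    (A : E →L[ℝ] E) (z : E) :
    HasFDerivAt (fun y => ψ y • A (y - z))
      (ψ y • A + (fderiv ℝ ψ y).smulRight (A (y - z))) y := by
  have h1 := hψ.hasFDerivAt
  have h2 : HasFDerivAt (fun y : E => A (y - z)) A y := by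
    have h3 : HasFDerivAt (fun y : E => y - z) (ContinuousLinearMap.id ℝ E) y :=
      (hasFDerivAt_id y).sub_const z
    have h4 : HasFDerivAt (A ∘ fun y : E => y - z) (A.comp (ContinuousLinearMap.id ℝ E)) y :=
      A.hasFDerivAt.comp y h3
    rw [ContinuousLinearMap.comp_id] at h4
    exact h4
  exact h1.smul h2

lemma smulRight_comp (f : E →L[ℝ] ℝ) (v : E) (B : E →L[ℝ] E) :
    (f.smulRight v).comp B = (f.comp B).smulRight v := by
  ext w
  simp

/-- **The field `ψ(y) A (y - z)`.** -/
lemma LocStat.linear [IsFiniteMeasure ν] (h : LocStat m O ν P) (A : E →L[ℝ] E) (z : E) {ψ : E → ℝ}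
    (hψ : ContDiff ℝ 1 ψ) (hc : HasCompactSupport ψ) (hs : tsupport ψ ⊆ O) :
    ∫ y, (ψ y * tr (A.comp (P y)) + fderiv ℝ ψ y (P y (A (y - z)))) ∂ν = 0 := by
  have hX : ContDiff ℝ 1 (fun y => ψ y • A (y - z)) :=
    hψ.smul (A.contDiff.comp (contDiff_id.sub contDiff_const))
  have hXc : HasCompactSupport (fun y => ψ y • A (y - z)) := hc.smul_right
  have hXs : tsupport (fun y => ψ y • A (y - z)) ⊆ O := by
    refine (closure_mono ?_).trans hs
    intro y hy
    rw [Function.mem_support] at hy ⊢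
    intro h0
    apply hy
    simp [h0]
  rw [← LocStat.vec h hX hXc hXs]
  refine integral_congr_ae ?_
  filter_upwards [h.proj] with y hy
  obtain ⟨T, -, hT⟩ := hy
  have hd := (hasFDerivAt_smul_linear (hψ.differentiable (by norm_num) y) A z).fderiv
  simp only [hd]
  rw [ContinuousLinearMap.add_comp, tr_add, ContinuousLinearMap.smul_comp, tr_smul, smulRight_comp,
    tr_smulRight]
  rfl

end Vale.Agent.P214.FV
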