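import Vale.Agent.P214.FV.Basic

/-!
# P214, block FV: stationarity in a cylinder over a base plane

`T` = base plane, `p = T.starProjection` the base projection, `y - p y` the height.  `CylStat`:
the measure sits in a slab over the open set `G` of base points, so that test fields only need a
compact support in the base directions.
-/

open Set Filter Topology MeasureTheory Metric
open scoped RealInnerProductSpace

set_option linter.all false

namespace Vale.Agent.P214.FV

variable {E : Type*} [NormedAddCommGroup E] [InnerProductSpace ℝ E] [FiniteDimensional ℝ E]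

/-- `X` vanishes off the preimage of a compact set of base points inside `G` -/
def BaseCpt {F : Type*} [Zero F] (T : Submodule ℝ E) (G : Set E) (X : E → F) : Prop :=
  ∃ K : Set E, IsCompact K ∧ K ⊆ G ∧ ∀ y, T.starProjection y ∉ K → X y = 0

variable [MeasurableSpace E] [BorelSpace E]

/-- stationarity in the cylinder over `G` -/
structure CylStat (m : ℕ) (T : Submodule ℝ E) (G : Set E) (h : ℝ) (ν : Measure E)
    (P : E → E →L[ℝ] E) : Prop where
  fin : IsFiniteMeasure ν
  meas : AEStronglyMeasurable P ν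
  proj : ∀ᵐ y ∂ν, ∃ S : Submodule ℝ E, Module.finrank ℝ S = m ∧ P y = S.starProjection
  dimT : Module.finrank ℝ T = m
  isOpen : IsOpen G
  slab : ∀ᵐ y ∂ν, T.starProjection y ∈ G → ‖y - T.starProjection y‖ ≤ h
  stat : ∀ X : E → E, ContDiff ℝ 1 X → BaseCpt T G X →
    ∫ y, tr ((fderiv ℝ X y).comp (P y)) ∂ν = 0

variable {m : ℕ} {T : Submodule ℝ E} {G : Set E} {h : ℝ} {ν : Measure E} {P : E → E →L[ℝ] E}

section basecpt

variable {F : Type*} [NormedAddCommGroup F] [NormedSpace ℝ F]

omit [MeasurableSpace E] [BorelSpace E] in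
lemma BaseCpt.fderiv {X : E → F} (hX : BaseCpt T G X) : BaseCpt T G (fderiv ℝ X) := by
  obtain ⟨K, hK, hKG, h0⟩ := hX
  refine ⟨K, hK, hKG, fun y hy => ?_⟩
  have hopen : IsOpen {y : E | T.starProjection y ∉ K} :=
    hK.isClosed.isOpen_compl.preimage T.starProjection.continuous
  have : X =ᶠ[𝓝 y] fun _ => (0 : F) := by
    filter_upwards [hopen.mem_nhds hy] with z hz
    exact h0 z hz
  rw [this.fderiv_eq]
  simp

omit [MeasurableSpace E] [BorelSpace E] in
lemma BaseCpt.comp_zero {F' : Type*} [Zero F'] {X : E → F} (hX : BaseCpt T G X) {Y : E → F'}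
    (h : ∀ y, X y = 0 → Y y = 0) : BaseCpt T G Y := by
  obtain ⟨K, hK, hKG, h0⟩ := hX
  exact ⟨K, hK, hKG, fun y hy => h y (h0 y hy)⟩

end basecpt

/-- continuous functions with compact base support are bounded on the slab -/
lemma CylStat.bound (hC : CylStat m T G h ν P) {g : E → ℝ} (hg : Continuous g)
    (hb : BaseCpt T G g) : ∃ C, 0 ≤ C ∧ ∀ᵐ y ∂ν, ‖g y‖ ≤ C := by
  obtain ⟨K, hK, hKG, h0⟩ := hb
  have hcpt : IsCompact {y : E | T.starProjection y ∈ K ∧ ‖y - T.starProjection y‖ ≤ h} := by
    obtain ⟨R, hR⟩ := hK.isBounded.exists_norm_le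
    refine Metric.isCompact_of_isClosed_isBounded ?_ ?_
    · exact (hK.isClosed.preimage T.starProjection.continuous).inter
        (isClosed_le (continuous_id.sub T.starProjection.continuous).norm continuous_const)
    · refine (Metric.isBounded_closedBall (x := (0 : E)) (r := R + h)).subset ?_
      rintro y ⟨h1, h2⟩
      rw [mem_closedBall_zero_iff]
      calc ‖y‖ = ‖T.starProjection y + (y - T.starProjection y)‖ := by congr 1; abel
        _ ≤ ‖T.starProjection y‖ + ‖y - T.starProjection y‖ := norm_add_le _ _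
        _ ≤ R + h := add_le_add (hR _ h1) h2
  obtain ⟨C, hCb⟩ := hcpt.exists_bound_of_continuousOn hg.continuousOn
  refine ⟨max C 0, le_max_right _ _, ?_⟩
  filter_upwards [hC.slab] with y hy
  by_cases hyK : T.starProjection y ∈ K
  · exact (hCb y ⟨hyK, hy (hKG hyK)⟩).trans (le_max_left _ _)
  · rw [h0 y hyK]
    simp

lemma CylStat.norm_le (hC : CylStat m T G h ν P) : ∀ᵐ y ∂ν, ‖P y‖ ≤ 1 := by
  filter_upwards [hC.proj] with y hy
  obtain ⟨T, -, hT⟩ := hy
  rw [hT]; exact T.starProjection_norm_le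

lemma CylStat.integrable (hC : CylStat m T G h ν P) {g : E → ℝ} (hg : Continuous g)
    (hb : BaseCpt T G g) : Integrable g ν := by
  have := hC.fin
  obtain ⟨C, -, hCb⟩ := hC.bound hg hb
  exact Integrable.mono' (integrable_const C) hg.aestronglyMeasurable hCb

lemma CylStat.integrable_tr (hC : CylStat m T G h ν P) {B : E → E →L[ℝ] E}
    (hB : Continuous B) (hb : BaseCpt T G B) : Integrable (fun y => tr ((B y).comp (P y))) ν := by
  have := hC.fin
  have hmeas : AEStronglyMeasurable (fun y => tr ((B y).comp (P y))) ν := by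
    refine continuous_tr.comp_aestronglyMeasurable ?_
    have : Continuous fun p : (E →L[ℝ] E) × (E →L[ℝ] E) => p.1.comp p.2 := by fun_prop
    exact this.comp_aestronglyMeasurable (hB.aestronglyMeasurable.prodMk hC.meas)
  obtain ⟨C, hC0, hCb⟩ := hC.bound hB.norm (hb.comp_zero (Y := fun y => ‖B y‖) fun y hy => by simp [hy])
  refine Integrable.mono' (integrable_const ((Module.finrank ℝ E : ℝ) * C)) hmeas ?_
  filter_upwards [hC.norm_le, hCb] with y hy hy'
  rw [Real.norm_eq_abs]
  refine (abs_tr_le _).trans ?_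
  gcongr
  rw [norm_norm] at hy'
  calc ‖(B y).comp (P y)‖ ≤ ‖B y‖ * ‖P y‖ := ContinuousLinearMap.opNorm_comp_le _ _
    _ ≤ C * 1 := by gcongr
    _ = C := mul_one C

lemma CylStat.integrable_clm (hC : CylStat m T G h ν P) {L : E → E →L[ℝ] ℝ} {w : E → E}
    (hL : Continuous L) (hw : Continuous w) (hb : BaseCpt T G L) :
    Integrable (fun y => L y (P y (w y))) ν := by
  have h1 := hC.integrable_tr (B := fun y => (L y).smulRight (w y)) ?_ ?_
  · refine h1.congr (Eventually.of_forall fun y => ?_)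
    simp only
    have : ((L y).smulRight (w y)).comp (P y) = ((L y).comp (P y)).smulRight (w y) :=
      smulRight_comp _ _ _
    rw [this, tr_smulRight]
    rfl
  · have : Continuous fun p : (E →L[ℝ] ℝ) × E => p.1.smulRight p.2 :=
      (isBoundedBilinearMap_smulRight (𝕜 := ℝ) (E := E) (F := E)).continuous
    exact this.comp (hL.prodMk hw)
  · exact hb.comp_zero fun y hy => by simp [hy]

/-- product rule for the first variation -/
lemma tr_fderiv_smul {φ : E → ℝ} {W : E → E} {y : E} (hφ : DifferentiableAt ℝ φ y)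
    (hW : DifferentiableAt ℝ W y) (B : E →L[ℝ] E) :
    tr ((fderiv ℝ (fun y => φ y • W y) y).comp B) =
      φ y * tr ((fderiv ℝ W y).comp B) + fderiv ℝ φ y (B (W y)) := by
  have hd := (hφ.hasFDerivAt.smul hW.hasFDerivAt).fderiv
  have hd' : fderiv ℝ (fun y => φ y • W y) y
      = φ y • fderiv ℝ W y + (fderiv ℝ φ y).smulRight (W y) := hd
  rw [hd', ContinuousLinearMap.add_comp, tr_add, ContinuousLinearMap.smul_comp, tr_smul,
    smulRight_comp, tr_smulRight]
  rfl

/-- **First variation with a product field.** -/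
lemma CylStat.prod (hC : CylStat m T G h ν P) {φ : E → ℝ} {W : E → E} (hφ : ContDiff ℝ 1 φ)
    (hW : ContDiff ℝ 1 W) (hb : BaseCpt T G φ) :
    ∫ y, (φ y * tr ((fderiv ℝ W y).comp (P y)) + fderiv ℝ φ y (P y (W y))) ∂ν = 0 := by
  rw [← hC.stat (fun y => φ y • W y) (hφ.smul hW) (hb.comp_zero fun y hy => by simp [hy])]
  refine integral_congr_ae (Eventually.of_forall fun y => ?_)
  exact (tr_fderiv_smul (hφ.differentiable (by norm_num) y) (hW.differentiable (by norm_num) y)
    (P y)).symm

lemma CylStat.integrable_prod₁ (hC : CylStat m T G h ν P) {φ : E → ℝ} {W : E → E}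
    (hφ : Continuous φ) (hW : ContDiff ℝ 1 W) (hb : BaseCpt T G φ) :
    Integrable (fun y => φ y * tr ((fderiv ℝ W y).comp (P y))) ν := by
  have h1 := hC.integrable_tr (B := fun y => φ y • fderiv ℝ W y)
    (hφ.smul (hW.continuous_fderiv (by norm_num))) (hb.comp_zero fun y hy => by simp [hy])
  refine h1.congr (Eventually.of_forall fun y => ?_)
  simp only
  rw [ContinuousLinearMap.smul_comp, tr_smul]

lemma CylStat.integrable_prod₂ (hC : CylStat m T G h ν P) {φ : E → ℝ} {W : E → E}
    (hφ : ContDiff ℝ 1 φ) (hW : Continuous W) (hb : BaseCpt T G φ) :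
    Integrable (fun y => fderiv ℝ φ y (P y (W y))) ν :=
  hC.integrable_clm (hφ.continuous_fderiv (by norm_num)) hW hb.fderiv

/-- product form, split -/
lemma CylStat.prod' (hC : CylStat m T G h ν P) {φ : E → ℝ} {W : E → E} (hφ : ContDiff ℝ 1 φ)
    (hW : ContDiff ℝ 1 W) (hb : BaseCpt T G φ) :
    ∫ y, φ y * tr ((fderiv ℝ W y).comp (P y)) ∂ν = -∫ y, fderiv ℝ φ y (P y (W y)) ∂ν := by
  have h1 := hC.prod hφ hW hb
  rw [integral_add (hC.integrable_prod₁ hφ.continuous hW hb)
    (hC.integrable_prod₂ hφ hW.continuous hb)] at h1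
  linarith

/-- **The field `ψ(y) A (y - z)`.** -/
lemma CylStat.linear (hC : CylStat m T G h ν P) (A : E →L[ℝ] E) (z : E) {ψ : E → ℝ}
    (hψ : ContDiff ℝ 1 ψ) (hb : BaseCpt T G ψ) :
    ∫ y, (ψ y * tr (A.comp (P y)) + fderiv ℝ ψ y (P y (A (y - z)))) ∂ν = 0 := by
  have hW : ContDiff ℝ 1 (fun y => A (y - z)) := A.contDiff.comp (contDiff_id.sub contDiff_const)
  rw [← hC.prod hψ hW hb]
  refine integral_congr_ae (Eventually.of_forall fun y => ?_)
  have h2 : HasFDerivAt (fun y : E => A (y - z)) A y := by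
    have h3 : HasFDerivAt (fun y : E => y - z) (ContinuousLinearMap.id ℝ E) y :=
      (hasFDerivAt_id y).sub_const z
    have h4 : HasFDerivAt (A ∘ fun y : E => y - z) (A.comp (ContinuousLinearMap.id ℝ E)) y :=
      A.hasFDerivAt.comp y h3
    rw [ContinuousLinearMap.comp_id] at h4
    exact h4
  simp only [h2.fderiv]

/-- gradient field of a `C^2` function, as a map `E → E` -/
noncomputable def grad (F : E → ℝ) (y : E) : E := (InnerProductSpace.toDual ℝ E).symm (fderiv ℝ F y)

omit [MeasurableSpace E] [BorelSpace E] in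
lemma inner_grad (F : E → ℝ) (y v : E) : ⟪grad F y, v⟫ = fderiv ℝ F y v := by
  simp [grad]

omit [MeasurableSpace E] [BorelSpace E] in
lemma contDiff_grad {F : E → ℝ} (hF : ContDiff ℝ 2 F) : ContDiff ℝ 1 (grad F) := by
  have h1 : ContDiff ℝ 1 (fderiv ℝ F) := hF.fderiv_right (by norm_num)
  exact (InnerProductSpace.toDual ℝ E).symm.toContinuousLinearEquiv.toContinuousLinearMap.contDiff.comp h1

/-- `tr (D²F ∘ B)` -/
noncomputable def hess (F : E → ℝ) (B : E →L[ℝ] E) (y : E) : ℝ := tr ((fderiv ℝ (grad F) y).comp B)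

/-- **Second order identity**: `∫ φ tr(P D²F) = ∫ F tr(P D²φ)` -/
lemma CylStat.second (hC : CylStat m T G h ν P) {φ F : E → ℝ} (hφ : ContDiff ℝ 2 φ)
    (hF : ContDiff ℝ 2 F) (hb : BaseCpt T G φ) :
    ∫ y, φ y * hess F (P y) y ∂ν = ∫ y, F y * hess φ (P y) y ∂ν := by
  have hφ1 : ContDiff ℝ 1 φ := hφ.of_le (by norm_num)
  have hF1 : ContDiff ℝ 1 F := hF.of_le (by norm_num)
  have h1 := hC.prod' hφ1 (contDiff_grad hF) hb
  -- the field `F ∇φ`
  have hbg : BaseCpt T G (grad φ) := by
    refine (hb.fderiv).comp_zero fun y hy => ?_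
    simp [grad, hy]
  have h2 := hC.stat (fun y => F y • grad φ y) (hF1.smul (contDiff_grad hφ))
    (hbg.comp_zero fun y hy => by simp [hy])
  have h3 : ∀ y, tr ((fderiv ℝ (fun y => F y • grad φ y) y).comp (P y)) =
      F y * hess φ (P y) y + fderiv ℝ F y (P y (grad φ y)) := fun y =>
    tr_fderiv_smul (hF1.differentiable (by norm_num) y)
      ((contDiff_grad hφ).differentiable (by norm_num) y) (P y)
  simp only [h3] at h2
  have i1 : Integrable (fun y => F y * hess φ (P y) y) ν := by
    have h4 := hC.integrable_tr (B := fun y => F y • fderiv ℝ (grad φ) y)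
      (hF1.continuous.smul ((contDiff_grad hφ).continuous_fderiv (by norm_num)))
      (hbg.fderiv.comp_zero fun y hy => by simp [hy])
    refine h4.congr (Eventually.of_forall fun y => ?_)
    simp only [hess]
    rw [ContinuousLinearMap.smul_comp, tr_smul]
  -- symmetric pairing
  have hsym : (fun y => fderiv ℝ F y (P y (grad φ y))) =ᵐ[ν]
      fun y => fderiv ℝ φ y (P y (grad F y)) := by
    filter_upwards [hC.proj] with y hy
    obtain ⟨S, -, hS⟩ := hy
    rw [hS, ← inner_grad, ← inner_grad]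
    rw [real_inner_comm, Submodule.inner_starProjection_left_eq_right]
  have i2 : Integrable (fun y => fderiv ℝ F y (P y (grad φ y))) ν := by
    refine (hC.integrable_prod₂ hφ1 (contDiff_grad hF).continuous hb).congr ?_
    exact hsym.symm
  rw [integral_add i1 i2, integral_congr_ae hsym] at h2
  have h5 : ∫ y, φ y * hess F (P y) y ∂ν = -∫ y, fderiv ℝ φ y (P y (grad F y)) ∂ν := h1
  linarith

end Vale.Agent.P214.FV
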