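import Vale.Agent.P214.FV.Planes

/-!
# P214, block FV: from local stationarity to the cylinder

If `{p y ∈ G, ‖q y - c‖ ≤ h'} ⊆ O` and in this region the measure sits in the thinner slab
`‖q y - c‖ ≤ h`, `h < h'`, then the restricted measure is `CylStat`.
-/

open Set Filter Topology MeasureTheory Metric
open scoped RealInnerProductSpace

set_option linter.all false

namespace Vale.Agent.P214.FV

variable {E : Type*} [NormedAddCommGroup E] [InnerProductSpace ℝ E] [FiniteDimensional ℝ E]

/-- the closed slab over `G` around height `c` -/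
def slabSet (T : Submodule ℝ E) (G : Set E) (c : E) (h : ℝ) : Set E :=
  {y | T.starProjection y ∈ G ∧ ‖co T y - c‖ ≤ h}

variable [MeasurableSpace E] [BorelSpace E]

lemma measurableSet_slabSet {T : Submodule ℝ E} {G : Set E} (hG : IsOpen G) (c : E) (h : ℝ) :
    MeasurableSet (slabSet T G c h) := by
  refine (hG.preimage T.starProjection.continuous).measurableSet.inter ?_
  exact (isClosed_le ((co T).continuous.sub continuous_const).norm continuous_const).measurableSet

variable {m : ℕ} {O : Set E} {ν : Measure E} {P : E → E →L[ℝ] E} {T : Submodule ℝ E} {G : Set E}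

/-- **removal of the vertical cut-off** -/
theorem _root_.Vale.Agent.P214.LocStat.cylStat [IsFiniteMeasure ν] (hν : LocStat m O ν P)
    (hT : Module.finrank ℝ T = m) (hG : IsOpen G) {c : E} {h h' : ℝ} (h0 : 0 ≤ h) (hh : h < h')
    (hO : slabSet T G c h' ⊆ O)
    (hslab : ∀ᵐ y ∂ν, y ∈ slabSet T G c h' → ‖co T y - c‖ ≤ h) :
    CylStat m T G (h + ‖c‖) (ν.restrict (slabSet T G c h')) P := by
  have hSm := measurableSet_slabSet (T := T) hG c h'
  refine ⟨inferInstance, hν.meas.restrict, ae_restrict_of_ae hν.proj, hT, hG, ?_, ?_⟩
  · rw [ae_restrict_iff' hSm]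
    filter_upwards [hslab] with y hy hyS _
    have := hy hyS
    calc ‖y - T.starProjection y‖ = ‖(co T y - c) + c‖ := by rw [co_apply]; congr 1; abel
      _ ≤ ‖co T y - c‖ + ‖c‖ := norm_add_le _ _
      _ ≤ h + ‖c‖ := by gcongr
  · rintro X hX ⟨K, hK, hKG, hX0⟩
    -- the vertical cut-off
    let η : ContDiffBump c := ⟨(2 * h + h') / 3, (h + 2 * h') / 3, by linarith, by linarith⟩
    have hη1 : η.rIn = (2 * h + h') / 3 := rfl
    have hη2 : η.rOut = (h + 2 * h') / 3 := rfl
    set X' : E → E := fun y => η (co T y) • X y with hX'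
    have hηc : ContDiff ℝ 1 (fun y => η (co T y)) := η.contDiff.comp (co T).contDiff
    have hX'c : ContDiff ℝ 1 X' := hηc.smul hX
    set K' : Set E := {y | T.starProjection y ∈ K ∧ ‖co T y - c‖ ≤ (h + 2 * h') / 3} with hK'
    have hK'cpt : IsCompact K' := by
      obtain ⟨R, hR⟩ := hK.isBounded.exists_norm_le
      refine Metric.isCompact_of_isClosed_isBounded ?_ ?_
      · exact (hK.isClosed.preimage T.starProjection.continuous).inter
          (isClosed_le ((co T).continuous.sub continuous_const).norm continuous_const)
      · refine (Metric.isBounded_closedBall (x := (0 : E))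
          (r := R + ((h + 2 * h') / 3 + ‖c‖))).subset ?_
        rintro y ⟨h1, h2⟩
        rw [mem_closedBall_zero_iff]
        calc ‖y‖ = ‖T.starProjection y + ((co T y - c) + c)‖ := by
              congr 1; rw [sub_add_cancel, star_add_co]
          _ ≤ ‖T.starProjection y‖ + (‖co T y - c‖ + ‖c‖) :=
              (norm_add_le _ _).trans (by gcongr; exact norm_add_le _ _)
          _ ≤ R + ((h + 2 * h') / 3 + ‖c‖) := by gcongr; exact hR _ h1
    have hsupp : Function.support X' ⊆ K' := by
      intro y hy
      rw [Function.mem_support] at hy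
      refine ⟨?_, ?_⟩
      · by_contra hyK
        exact hy (by simp [hX', hX0 y hyK])
      · by_contra hyη
        apply hy
        have : η (co T y) = 0 := by
          refine η.zero_of_le_dist ?_
          rw [dist_eq_norm, hη2]
          linarith
        simp [hX', this]
    have hts : tsupport X' ⊆ K' := closure_minimal hsupp hK'cpt.isClosed
    have hcs : HasCompactSupport X' := hK'cpt.of_isClosed_subset isClosed_closure hts
    have hsO : tsupport X' ⊆ O := by
      refine hts.trans (fun y hy => hO ⟨hKG hy.1, hy.2.trans ?_⟩)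
      linarith
    have hvec := LocStat.vec hν hX'c hcs hsO
    rw [← hvec, ← integral_indicator hSm]
    refine integral_congr_ae ?_
    filter_upwards [hslab] with y hy
    by_cases hyS : y ∈ slabSet T G c h'
    · rw [indicator_of_mem hyS]
      have h1 : ‖co T y - c‖ ≤ h := hy hyS
      have : X' =ᶠ[𝓝 y] X := by
        have hopen : IsOpen {z : E | ‖co T z - c‖ < (2 * h + h') / 3} :=
          isOpen_lt ((co T).continuous.sub continuous_const).norm continuous_const
        have hmem : y ∈ {z : E | ‖co T z - c‖ < (2 * h + h') / 3} := by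
          show ‖co T y - c‖ < (2 * h + h') / 3
          linarith
        filter_upwards [hopen.mem_nhds hmem] with z hz
        have : η (co T z) = 1 := by
          refine η.one_of_mem_closedBall ?_
          rw [mem_closedBall, dist_eq_norm, hη1]
          exact le_of_lt hz
        simp [hX', this]
      simp only [this.fderiv_eq]
    · rw [indicator_of_notMem hyS]
      have : X' =ᶠ[𝓝 y] fun _ => (0 : E) := by
        have hy' : y ∉ K' := fun hy' => hyS ⟨hKG hy'.1, hy'.2.trans (by linarith)⟩
        filter_upwards [hK'cpt.isClosed.isOpen_compl.mem_nhds hy'] with z hz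
        by_contra h2
        exact hz (hsupp h2)
      simp only [this.fderiv_eq]
      simp [tr_zero]

/-- monotonicity in the set of base points -/
lemma CylStat.mono {h : ℝ} (hC : CylStat m T G h ν P) {G' : Set E} (hG' : IsOpen G')
    (hsub : G' ⊆ G) : CylStat m T G' h ν P := by
  refine ⟨hC.fin, hC.meas, hC.proj, hC.dimT, hG', ?_, ?_⟩
  · filter_upwards [hC.slab] with y hy hy'
    exact hy (hsub hy')
  · rintro X hX ⟨K, hK, hKG, hX0⟩
    exact hC.stat X hX ⟨K, hK, hKG.trans hsub, hX0⟩

/-- restriction to the cylinder over a smaller open set -/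
lemma CylStat.restrict {h : ℝ} (hC : CylStat m T G h ν P) {G' : Set E} (hG' : IsOpen G')
    (hsub : G' ⊆ G) : CylStat m T G' h (ν.restrict (T.starProjection ⁻¹' G')) P := by
  have := hC.fin
  have hM : MeasurableSet (T.starProjection ⁻¹' G') :=
    (hG'.preimage T.starProjection.continuous).measurableSet
  refine ⟨inferInstance, hC.meas.restrict, ae_restrict_of_ae hC.proj, hC.dimT, hG', ?_, ?_⟩
  · filter_upwards [ae_restrict_of_ae hC.slab] with y hy hy'
    exact hy (hsub hy')
  · rintro X hX ⟨K, hK, hKG, hX0⟩
    have h1 := hC.stat X hX ⟨K, hK, hKG.trans hsub, hX0⟩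
    rw [← h1, ← integral_indicator hM]
    refine integral_congr_ae (Eventually.of_forall fun y => ?_)
    by_cases hy : y ∈ T.starProjection ⁻¹' G'
    · simp only [indicator_of_mem hy]
    · simp only [indicator_of_notMem hy]
      have hz : fderiv ℝ X y = 0 := by
        have hopen : IsOpen {z : E | T.starProjection z ∉ K} :=
          hK.isClosed.isOpen_compl.preimage T.starProjection.continuous
        have hmem : y ∈ {z : E | T.starProjection z ∉ K} := fun h' => hy (hKG h')
        have : X =ᶠ[𝓝 y] fun _ => (0 : E) := by
          filter_upwards [hopen.mem_nhds hmem] with z hz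
          exact hX0 z hz
        rw [this.fderiv_eq]; simp
      rw [hz]
      simp [tr_zero]

end Vale.Agent.P214.FV
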